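import Vale.Agent.P217.Tors.Residual

/-!
# P217: chains of preimages below the `p`-torsion
-/

noncomputable section

namespace Vale.Agent.P217.Tors

set_option linter.unusedSectionVars false

variable {C : Type*} [NormedField C] [IsUltrametricDist C]

open DiscLaw.Pt
open scoped Classical

theorem norm_one_of_vv_eq {x y : C} (hx : x ≠ 0) (hy : y ≠ 0) (h : vv x = vv y) :
    ‖x / y‖ = 1 := by
  rw [norm_div, (vv_eq_iff hx hy).mp h, div_self (norm_ne_zero_iff.mpr hy)]

namespace Tower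

variable {L : DiscLaw C} {p h d : ℕ} (T : Tower L p h d)

include T

/-- A point of the torsion. -/
def IsTors (z : L.Pt) : Prop := ∃ M, z ∈ T.roots M

theorem one_lt_pn : (1 : ℝ) < (p : ℝ) ^ (h + d) :=
  one_lt_pow₀ T.one_lt_p (by have := T.one_le_h; omega)

/-- A fixed preimage under multiplication by `p` of a torsion point. -/
def preim (z : L.Pt) : L.Pt := if hz : ∃ r, T.IsTors r ∧ p • r = z then hz.choose else 0

theorem preim_spec {z : L.Pt} (hz : T.IsTors z) :
    T.IsTors (T.preim z) ∧ p • T.preim z = z := by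
  obtain ⟨M, hM⟩ := hz
  obtain ⟨r, hr, hrz⟩ := T.exists_preimage hM
  have he : ∃ r, T.IsTors r ∧ p • r = z := ⟨r, ⟨M + 1, hr⟩, hrz⟩
  rw [preim, dif_pos he]
  exact he.choose_spec

theorem ne_zero_of_smul {y z : L.Pt} (hy : p • y = z) (hz : z ≠ 0) : y ≠ 0 := by
  rintro rfl; exact hz (by rw [← hy, smul_zero])

/-- Preimages of shallow points are deep. -/
theorem v_preimage {y z : L.Pt} (hy : p • y = z) (hz0 : z ≠ 0)
    (hzv : z.v < (p : ℝ) ^ (h + d) * T.rmin) :
    y.v = z.v / (p : ℝ) ^ (h + d) ∧ y.v < T.rmin := by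
  have hy0 := T.ne_zero_of_smul hy hz0
  have hlt : y.v < T.rmin := by
    by_contra hge
    rw [not_lt] at hge
    have hyr : y ∉ T.roots 1 := fun hm =>
      hz0 (by rw [← hy]; simpa using (T.mem_roots 1 y).mp hm)
    have h1 := (T.phiN_mono 1 hge).trans (T.phiN_le_v_smul 1 hyr)
    rw [T.phiN_one_deep le_rfl, pow_one, hy] at h1
    exact absurd h1 (not_le.mpr hzv)
  refine ⟨?_, hlt⟩
  have h2 := (T.v_smul_deep hy0 hlt).2
  rw [hy] at h2
  rw [h2, mul_div_cancel_left₀ _ (pow_ne_zero _ T.p_pos.ne')]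

/-- The chosen chain of preimages. -/
def chain (z : L.Pt) (k : ℕ) : L.Pt := T.preim^[k] z

theorem chain_zero (z : L.Pt) : T.chain z 0 = z := rfl

theorem chain_succ (z : L.Pt) (k : ℕ) : T.chain z (k + 1) = T.preim (T.chain z k) :=
  Function.iterate_succ_apply' _ _ _

theorem isTors_chain {z : L.Pt} (hz : T.IsTors z) (k : ℕ) : T.IsTors (T.chain z k) := by
  induction k with
  | zero => exact hz
  | succ k ih => rw [chain_succ]; exact (T.preim_spec ih).1

theorem smul_chain {z : L.Pt} (hz : T.IsTors z) (k : ℕ) :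
    p • T.chain z (k + 1) = T.chain z k := by
  rw [chain_succ]; exact (T.preim_spec (T.isTors_chain hz k)).2

theorem pow_smul_chain {z : L.Pt} (hz : T.IsTors z) (k : ℕ) : p ^ k • T.chain z k = z := by
  induction k with
  | zero => simp [chain_zero]
  | succ k ih => rw [pow_succ, mul_smul, T.smul_chain hz, ih]

theorem chain_ne_zero {z : L.Pt} (hz : T.IsTors z) (h0 : z ≠ 0) (k : ℕ) : T.chain z k ≠ 0 :=
  fun e => h0 (by rw [← T.pow_smul_chain hz k, e, smul_zero])

theorem v_chain {z : L.Pt} (hz : T.IsTors z) (h0 : z ≠ 0) (hv : z.v < T.rmin) (k : ℕ) :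
    (T.chain z k).v = z.v / (p : ℝ) ^ ((h + d) * k) ∧ (T.chain z k).v < T.rmin := by
  induction k with
  | zero => simp [chain_zero, hv]
  | succ k ih =>
    have hne := T.chain_ne_zero hz h0 k
    have h1 := T.v_preimage (T.smul_chain hz k) hne
      (ih.2.trans_le (le_mul_of_one_le_left T.rmin_pos.le T.one_lt_pn.le))
    refine ⟨?_, h1.2⟩
    rw [h1.1, ih.1, div_div, ← pow_add, mul_add, mul_one]

/-- `p • y ≡ y ^ (p ^ n)` to leading order below the `p`-torsion. -/
theorem res_smul_div {y : L.Pt} (hy0 : y ≠ 0) (hy : y.v < T.rmin) :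
    ‖(p • y).val / y.val ^ p ^ (h + d)‖ ≤ 1 ∧
      res ((p • y).val / y.val ^ p ^ (h + d)) = 1 := by
  have hyv := val_ne_zero hy0
  have hterm : ∀ r ∈ T.roots 1, ‖(y.val - r.val) / y.val‖ ≤ 1 ∧
      res ((y.val - r.val) / y.val) = 1 := by
    intro r hr
    have hsmall : ‖-(r.val / y.val)‖ < 1 := by
      rw [norm_neg, norm_div, div_lt_one (norm_pos_iff.mpr hyv)]
      rcases eq_or_ne r 0 with h0 | h0
      · rw [h0, DiscLaw.val_zero, norm_zero]; exact norm_pos_iff.mpr hyv
      · exact (vv_lt_iff hyv (val_ne_zero h0)).mp (hy.trans_le (T.rmin_le hr h0))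
    have he : (y.val - r.val) / y.val = 1 + -(r.val / y.val) := by field_simp; ring
    rw [he, res_add (by simp) hsmall.le, res_one, (res_eq_zero_iff hsmall.le).mpr hsmall,
      add_zero]
    exact ⟨(IsUltrametricDist.norm_add_le_max _ _).trans (max_le (by simp) hsmall.le), rfl⟩
  have hP : ‖∏ r ∈ T.roots 1, (y.val - r.val) / y.val‖ ≤ 1 := by
    rw [norm_prod]; exact Finset.prod_le_one (fun _ _ => norm_nonneg _) fun r hr => (hterm r hr).1
  have hkey : (p • y).val / y.val ^ p ^ (h + d)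
      = T.unit 1 y * (∏ r ∈ T.roots 1, (y.val - r.val) / y.val) ^ p ^ h := by
    have := T.smul_eq 1 y
    rw [pow_one, mul_one] at this
    rw [this, Finset.prod_pow, Finset.prod_div_distrib, div_pow, Finset.prod_const, T.card_roots,
      mul_one, ← pow_mul, ← pow_add, add_comm d h, mul_div_assoc]
  have hPn : ‖(∏ r ∈ T.roots 1, (y.val - r.val) / y.val) ^ p ^ h‖ ≤ 1 := by
    rw [norm_pow]; exact pow_le_one₀ (norm_nonneg _) hP
  rw [hkey]
  refine ⟨by rw [norm_mul, T.norm_unit, one_mul]; exact hPn, ?_⟩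
  have hu : res (T.unit 1 y) = 1 := by
    rw [← res_one (C := C), res_eq_iff (T.norm_unit 1 y).le (by simp)]
    exact T.unit_close 1 y
  rw [res_mul (T.norm_unit 1 y).le hPn, hu, one_mul, res_pow hP,
    res_prod _ _ fun r hr => (hterm r hr).1, Finset.prod_eq_one fun r hr => (hterm r hr).2, one_pow]

theorem res_smul_ratio {y y' : L.Pt} (hy0 : y ≠ 0) (hy0' : y' ≠ 0) (hv : y.v = y'.v)
    (hy : y.v < T.rmin) :
    res ((p • y).val / (p • y').val) = res (y.val / y'.val) ^ p ^ (h + d) := by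
  obtain ⟨h1, r1⟩ := T.res_smul_div hy0 hy
  obtain ⟨h2, r2⟩ := T.res_smul_div hy0' (hv ▸ hy)
  obtain ⟨hs, hsv⟩ := T.v_smul_deep hy0 hy
  obtain ⟨hs', hsv'⟩ := T.v_smul_deep hy0' (hv ▸ hy)
  have hn : ‖y.val / y'.val‖ = 1 := norm_one_of_vv_eq (val_ne_zero hy0) (val_ne_zero hy0') hv
  have hn2 : ‖(p • y).val / (p • y').val‖ = 1 :=
    norm_one_of_vv_eq (val_ne_zero hs) (val_ne_zero hs') (hsv.trans (by rw [hv, ← hsv']; rfl))
  have hpn : ‖(y.val / y'.val) ^ p ^ (h + d)‖ = 1 := by rw [norm_pow, hn, one_pow]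
  have key : (p • y).val / (p • y').val * ((p • y').val / y'.val ^ p ^ (h + d))
      = (p • y).val / y.val ^ p ^ (h + d) * (y.val / y'.val) ^ p ^ (h + d) := by
    have := val_ne_zero hy0
    have := val_ne_zero hy0'
    have := val_ne_zero hs'
    rw [div_pow]
    field_simp
  have := congrArg res key
  rwa [res_mul hn2.le h2, r2, mul_one, res_mul h1 hpn.le, r1, one_mul, res_pow hn.le] at this

theorem res_chain_ratio {z z' : L.Pt} (hz : T.IsTors z) (hz' : T.IsTors z') (h0 : z ≠ 0)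
    (h0' : z' ≠ 0) (hv : z.v = z'.v) (hlt : z.v < T.rmin) {k m : ℕ} (hkm : k ≤ m) :
    res ((T.chain z k).val / (T.chain z' k).val) =
      res ((T.chain z m).val / (T.chain z' m).val) ^ p ^ ((h + d) * (m - k)) := by
  induction m, hkm using Nat.le_induction with
  | base => simp
  | succ m hkm ih =>
    obtain ⟨hm, hmlt⟩ := T.v_chain hz h0 hlt (m + 1)
    obtain ⟨hm', -⟩ := T.v_chain hz' h0' (hv ▸ hlt) (m + 1)
    have := T.res_smul_ratio (T.chain_ne_zero hz h0 (m + 1)) (T.chain_ne_zero hz' h0' (m + 1))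
      (by rw [hm, hm', hv]) hmlt
    rw [T.smul_chain hz, T.smul_chain hz'] at this
    rw [ih, this, ← pow_mul, ← pow_add, Nat.succ_sub hkm, Nat.mul_succ, add_comm (h + d)]

end Tower

end Vale.Agent.P217.Tors
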