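import Mathlib

/-!
# P217: the additive polynomial of a finite additive subgroup of a field of characteristic `p`
-/

noncomputable section

namespace Vale.Agent.P217.Tors

open Polynomial

set_option linter.unusedSectionVars false

variable {K : Type*} [Field K] (p : ℕ) [hp : Fact p.Prime] [CharP K p]

/-- `x ↦ ∑ i ≤ m, c i * x ^ (p ^ i)`. -/
def addEval (m : ℕ) (c : ℕ → K) (x : K) : K := ∑ i ∈ Finset.range (m + 1), c i * x ^ p ^ i

theorem addEval_add (m : ℕ) (c : ℕ → K) (x y : K) :
    addEval p m c (x + y) = addEval p m c x + addEval p m c y := by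
  simp only [addEval, add_pow_char_pow, mul_add, Finset.sum_add_distrib]

theorem addEval_zero (m : ℕ) (c : ℕ → K) : addEval p m c 0 = 0 := by
  simp [addEval, hp.out.ne_zero]

theorem addEval_nsmul (m : ℕ) (c : ℕ → K) (x : K) (k : ℕ) :
    addEval p m c (k • x) = k • addEval p m c x := by
  induction k with
  | zero => simp [addEval_zero p m c]
  | succ k ih => rw [succ_nsmul, succ_nsmul, addEval_add, ih]

/-- The polynomial `∑ i ≤ m, c i * X ^ (p ^ i)`. -/
def addPoly (m : ℕ) (c : ℕ → K) : K[X] := ∑ i ∈ Finset.range (m + 1), C (c i) * X ^ p ^ i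

theorem eval_addPoly (m : ℕ) (c : ℕ → K) (x : K) :
    (addPoly p m c).eval x = addEval p m c x := by
  simp [addPoly, addEval, eval_finsetSum]

theorem natDegree_addPoly (m : ℕ) (c : ℕ → K) (hc : c m = 1) :
    (addPoly p m c).natDegree = p ^ m ∧ (addPoly p m c).Monic := by
  have hlow : (∑ i ∈ Finset.range m, C (c i) * X ^ p ^ i).degree < ((p ^ m : ℕ) : WithBot ℕ) := by
    refine lt_of_le_of_lt (degree_sum_le _ _) ?_
    refine (Finset.sup_lt_iff (WithBot.bot_lt_coe _)).mpr fun i hi => ?_
    refine lt_of_le_of_lt (degree_C_mul_X_pow_le _ _) ?_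
    exact_mod_cast Nat.pow_lt_pow_right hp.out.one_lt (Finset.mem_range.mp hi)
  have heq : addPoly p m c = X ^ p ^ m + ∑ i ∈ Finset.range m, C (c i) * X ^ p ^ i := by
    rw [addPoly, Finset.sum_range_succ, hc, map_one, one_mul, add_comm]
  have hmon : (addPoly p m c).Monic := heq ▸ monic_X_pow_add hlow
  refine ⟨natDegree_eq_of_degree_eq_some ?_, hmon⟩
  rw [heq, degree_add_eq_left_of_degree_lt (by rwa [degree_X_pow]), degree_X_pow]

/-- A monic additive polynomial which vanishes on a subgroup of the right size is the product of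
the linear factors. -/
theorem prod_sub_eq_addEval (s : Finset K) (m : ℕ) (c : ℕ → K) (hc : c m = 1)
    (hcard : s.card = p ^ m) (hz : ∀ x ∈ s, addEval p m c x = 0) (x : K) :
    ∏ e ∈ s, (x - e) = addEval p m c x := by
  obtain ⟨hdeg, hmon⟩ := natDegree_addPoly p m c hc
  have hle : s.val ≤ (addPoly p m c).roots := by
    refine Multiset.le_iff_subset s.nodup |>.mpr fun e he => ?_
    rw [mem_roots hmon.ne_zero, IsRoot, eval_addPoly]
    exact hz e he
  have heq : s.val = (addPoly p m c).roots := by
    refine Multiset.eq_of_le_of_card_le hle ?_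
    calc Multiset.card (addPoly p m c).roots ≤ (addPoly p m c).natDegree := card_roots' _
      _ = p ^ m := hdeg
      _ = _ := hcard.symm
  have hfac := prod_multiset_X_sub_C_of_monic_of_roots_card_eq hmon (by
    rw [← heq, hdeg]; exact hcard)
  rw [← heq] at hfac
  have := congrArg (eval x) hfac
  rw [eval_addPoly] at this
  rw [← this, eval_multiset_prod, Multiset.map_map, Finset.prod_eq_multiset_prod]
  simp

/-- Every finite additive subgroup has `p ^ m` elements and an additive polynomial. -/
theorem exists_addEval (S : Finset K) :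
    ∃ (m : ℕ) (E : Finset K) (c : ℕ → K), S ⊆ E ∧
      (∀ e ∈ E, e ∈ AddSubgroup.closure (S : Set K)) ∧
      E.card = p ^ m ∧ c m = 1 ∧ ∀ e ∈ E, addEval p m c e = 0 := by
  classical
  induction S using Finset.induction_on with
  | empty =>
    exact ⟨0, {0}, fun _ => 1, Finset.empty_subset _, by simp, by simp, rfl, by simp [addEval]⟩
  | insert a S ha ih =>
    obtain ⟨m, E, c, hSE, hcl, hcard, hcm, hz⟩ := ih
    have hmono : ∀ e ∈ E, e ∈ AddSubgroup.closure ((insert a S : Finset K) : Set K) := fun e he =>
      AddSubgroup.closure_mono (by simp) (hcl e he)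
    by_cases hA : addEval p m c a = 0
    · refine ⟨m, E, c, ?_, hmono, hcard, hcm, hz⟩
      intro x hx
      rcases Finset.mem_insert.mp hx with rfl | hx
      · have h := prod_sub_eq_addEval p E m c hcm hcard hz x
        rw [hA, Finset.prod_eq_zero_iff] at h
        obtain ⟨e, he, hxe⟩ := h
        rwa [sub_eq_zero.mp hxe]
      · exact hSE hx
    · let A := addEval p m c a
      let c' : ℕ → K := fun i =>
        (if i = 0 then 0 else c (i - 1) ^ p) - (if i ≤ m then A ^ (p - 1) * c i else 0)
      have hc' : ∀ x, addEval p (m + 1) c' x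
          = addEval p m c x ^ p - A ^ (p - 1) * addEval p m c x := by
        intro x
        have e1 : addEval p m c x ^ p = ∑ i ∈ Finset.range (m + 1), c i ^ p * x ^ p ^ (i + 1) := by
          rw [addEval, sum_pow_char]
          refine Finset.sum_congr rfl fun i _ => ?_
          rw [mul_pow, ← pow_mul, ← pow_succ]
        simp only [addEval, c', sub_mul, Finset.sum_sub_distrib]
        congr 1
        · rw [Finset.sum_range_succ']
          simpa [addEval] using e1.symm
        · rw [Finset.sum_range_succ, if_neg (by omega), zero_mul, add_zero, Finset.mul_sum]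
          refine Finset.sum_congr rfl fun i hi => ?_
          rw [if_pos (by have := Finset.mem_range.mp hi; omega)]
          ring
      let E' : Finset K := (E ×ˢ Finset.range p).image fun q => q.1 + q.2 • a
      refine ⟨m + 1, E', c', ?_, ?_, ?_, ?_, ?_⟩
      · intro x hx
        rcases Finset.mem_insert.mp hx with rfl | hx
        · have h0 : (0 : K) ∈ E := by
            have h := prod_sub_eq_addEval p E m c hcm hcard hz 0
            rw [addEval_zero, Finset.prod_eq_zero_iff] at h
            obtain ⟨e, he, h0⟩ := h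
            simpa [show e = 0 by simpa using h0] using he
          exact Finset.mem_image.mpr ⟨(0, 1), Finset.mem_product.mpr
            ⟨h0, Finset.mem_range.mpr hp.out.one_lt⟩, by simp⟩
        · exact Finset.mem_image.mpr ⟨(x, 0), Finset.mem_product.mpr
            ⟨hSE hx, Finset.mem_range.mpr hp.out.pos⟩, by simp⟩
      · intro e he
        obtain ⟨q, hq, rfl⟩ := Finset.mem_image.mp he
        exact add_mem (hmono _ (Finset.mem_product.mp hq).1)
          (nsmul_mem (AddSubgroup.subset_closure (by simp)) _)
      · rw [Finset.card_image_of_injOn, Finset.card_product, hcard, Finset.card_range, pow_succ]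
        intro q hq r hr hqr
        have hq' := Finset.mem_product.mp (Finset.mem_coe.mp hq)
        have hr' := Finset.mem_product.mp (Finset.mem_coe.mp hr)
        have := congrArg (addEval p m c) hqr
        rw [addEval_add, addEval_add, addEval_nsmul, addEval_nsmul, hz _ hq'.1, hz _ hr'.1,
          zero_add, zero_add, nsmul_eq_mul, nsmul_eq_mul] at this
        have h2 : (q.2 : K) = r.2 := mul_right_cancel₀ hA this
        have h3 : q.2 = r.2 := ((CharP.natCast_eq_natCast K p).mp h2).eq_of_lt_of_lt
          (Finset.mem_range.mp hq'.2) (Finset.mem_range.mp hr'.2)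
        simp only [h3, add_left_inj] at hqr
        exact Prod.ext hqr h3
      · simp only [c', Nat.succ_ne_zero, if_false, Nat.add_sub_cancel, hcm, one_pow,
          if_neg (show ¬ m + 1 ≤ m by omega), sub_zero]
      · intro e he
        obtain ⟨q, hq, rfl⟩ := Finset.mem_image.mp he
        rw [hc', addEval_add, addEval_nsmul, hz _ (Finset.mem_product.mp hq).1, zero_add,
          nsmul_eq_mul, mul_pow]
        have hfrob : (q.2 : K) ^ p = q.2 := by
          rw [← frobenius_def, map_natCast]
        rw [hfrob, show addEval p m c a = A from rfl]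
        have : A ^ p = A ^ (p - 1) * A := by rw [← pow_succ, Nat.sub_add_cancel hp.out.one_le]
        rw [this]; ring

/-- The product over a finite additive subgroup is an additive polynomial. -/
theorem exists_addEval_eq_prod (E : Finset K)
    (h0 : (0 : K) ∈ E) (hsub : ∀ x ∈ E, ∀ y ∈ E, x - y ∈ E) :
    ∃ (m : ℕ) (c : ℕ → K), E.card = p ^ m ∧ c m = 1 ∧
      ∀ x, ∏ e ∈ E, (x - e) = addEval p m c x := by
  obtain ⟨m, E', c, hSE, hcl, hcard, hcm, hz⟩ := exists_addEval p E
  let H : AddSubgroup K := AddSubgroup.ofSub (E : Set K) ⟨0, h0⟩ fun x hx y hy => by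
    simpa [sub_eq_add_neg] using hsub x hx y hy
  have hEE : E' = E := by
    refine Finset.Subset.antisymm (fun e he => ?_) hSE
    have : AddSubgroup.closure (E : Set K) ≤ H := (AddSubgroup.closure_le _).mpr fun x hx => hx
    exact Finset.mem_coe.mp (this (hcl e he))
  subst hEE
  exact ⟨m, c, hcard, hcm, prod_sub_eq_addEval p E' m c hcm hcard hz⟩

/-- The linear coefficient does not vanish. -/
theorem addEval_coeff_zero_ne_zero (E : Finset K) (m : ℕ) (c : ℕ → K) (hc : c m = 1)
    (h0 : (0 : K) ∈ E) (hcard : E.card = p ^ m) (hz : ∀ x ∈ E, addEval p m c x = 0) : c 0 ≠ 0 := by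
  classical
  obtain ⟨hdeg, hmon⟩ := natDegree_addPoly p m c hc
  have hle : E.val ≤ (addPoly p m c).roots :=
    Multiset.le_iff_subset E.nodup |>.mpr fun e he => by
      rw [mem_roots hmon.ne_zero, IsRoot, eval_addPoly]; exact hz e he
  have heq : E.val = (addPoly p m c).roots := Multiset.eq_of_le_of_card_le hle <|
    ((card_roots' _).trans hdeg.le).trans hcard.ge
  intro hc0
  have h1 : (addPoly p m c).rootMultiplicity 0 = 1 := by
    rw [← count_roots, ← heq, Multiset.count_eq_one_of_mem E.nodup h0]
  have hd : (addPoly p m c).derivative.eval 0 = 0 := by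
    rw [addPoly, derivative_sum, eval_finsetSum]
    refine Finset.sum_eq_zero fun i _ => ?_
    rcases i with _ | i
    · simp [hc0]
    · rw [derivative_C_mul_X_pow]
      simp [CharP.cast_eq_zero K p]
  have h2 := (one_lt_rootMultiplicity_iff_isRoot hmon.ne_zero).mpr
    ⟨(mem_roots hmon.ne_zero).mp (heq ▸ h0), hd⟩
  omega

end Vale.Agent.P217.Tors
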