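import Mathlib

/-!
# P217: the residue field of an ultrametric normed field

`res x` is the residue of `x` for `‖x‖ ≤ 1` (and `0` otherwise).
-/

noncomputable section

namespace Vale.Agent.P217.Tors

set_option linter.unusedSectionVars false

variable (C : Type*) [NormedField C] [IsUltrametricDist C]

/-- The closed unit disc as a valuation subring. -/
def intRing : ValuationSubring C := (NormedField.valuation (K := C)).valuationSubring

/-- The residue field. -/
abbrev Resid := IsLocalRing.ResidueField (intRing C)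

variable {C}

theorem mem_intRing {x : C} : x ∈ intRing C ↔ ‖x‖ ≤ 1 := by
  rw [intRing, Valuation.mem_valuationSubring_iff, NormedField.valuation_apply, ← NNReal.coe_le_coe]
  simp

/-- The residue of an element of norm at most one (`0` for the others). -/
def res (x : C) : Resid C :=
  if h : ‖x‖ ≤ 1 then IsLocalRing.residue _ ⟨x, mem_intRing.mpr h⟩ else 0

theorem res_of_le {x : C} (h : ‖x‖ ≤ 1) :
    res x = IsLocalRing.residue (intRing C) ⟨x, mem_intRing.mpr h⟩ := dif_pos h

@[simp] theorem res_one : res (1 : C) = 1 := by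
  rw [res_of_le (by simp)]
  exact map_one (IsLocalRing.residue (intRing C))

@[simp] theorem res_zero : res (0 : C) = 0 := by
  rw [res_of_le (by simp)]
  exact map_zero (IsLocalRing.residue (intRing C))

theorem res_mul {x y : C} (hx : ‖x‖ ≤ 1) (hy : ‖y‖ ≤ 1) : res (x * y) = res x * res y := by
  have hxy : ‖x * y‖ ≤ 1 := by
    rw [norm_mul]; exact mul_le_one₀ hx (norm_nonneg _) hy
  rw [res_of_le hx, res_of_le hy, res_of_le hxy, ← map_mul]
  rfl

theorem res_pow {x : C} (hx : ‖x‖ ≤ 1) (k : ℕ) : res (x ^ k) = res x ^ k := by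
  induction k with
  | zero => simp
  | succ k ih =>
    rw [pow_succ, res_mul (by rw [norm_pow]; exact pow_le_one₀ (norm_nonneg _) hx) hx, ih, pow_succ]

theorem res_add {x y : C} (hx : ‖x‖ ≤ 1) (hy : ‖y‖ ≤ 1) : res (x + y) = res x + res y := by
  have hxy : ‖x + y‖ ≤ 1 := (IsUltrametricDist.norm_add_le_max x y).trans (max_le hx hy)
  rw [res_of_le hx, res_of_le hy, res_of_le hxy, ← map_add]
  rfl

theorem res_neg {x : C} (hx : ‖x‖ ≤ 1) : res (-x) = - res x := by
  have h := res_add hx (show ‖-x‖ ≤ 1 by simpa using hx)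
  rw [add_neg_cancel, res_zero] at h
  exact (neg_eq_of_add_eq_zero_right h.symm).symm

theorem res_sub {x y : C} (hx : ‖x‖ ≤ 1) (hy : ‖y‖ ≤ 1) : res (x - y) = res x - res y := by
  rw [sub_eq_add_neg, res_add hx (by simpa using hy), res_neg hy, sub_eq_add_neg]

theorem res_prod {ι : Type*} (s : Finset ι) (f : ι → C) (h : ∀ i ∈ s, ‖f i‖ ≤ 1) :
    res (∏ i ∈ s, f i) = ∏ i ∈ s, res (f i) := by
  classical
  induction s using Finset.induction_on with
  | empty => simp
  | insert a s ha ih =>
    have hs : ∀ i ∈ s, ‖f i‖ ≤ 1 := fun i hi => h i (Finset.mem_insert_of_mem hi)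
    have hp : ‖∏ i ∈ s, f i‖ ≤ 1 := by
      rw [norm_prod]
      exact Finset.prod_le_one (fun i _ => norm_nonneg _) hs
    rw [Finset.prod_insert ha, Finset.prod_insert ha,
      res_mul (h a (Finset.mem_insert_self a s)) hp, ih hs]

theorem res_eq_zero_iff {x : C} (hx : ‖x‖ ≤ 1) : res x = 0 ↔ ‖x‖ < 1 := by
  rw [res_of_le hx, IsLocalRing.residue_eq_zero_iff, IsLocalRing.mem_maximalIdeal, mem_nonunits_iff]
  constructor
  · intro h
    refine lt_of_le_of_ne hx fun h1 => h ?_
    have hx0 : x ≠ 0 := by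
      intro h0; simp [h0] at h1
    exact isUnit_iff_exists_inv.mpr ⟨⟨x⁻¹, mem_intRing.mpr (by rw [norm_inv, h1, inv_one])⟩,
      Subtype.ext (mul_inv_cancel₀ hx0)⟩
  · rintro h ⟨u, hu⟩
    have h2 : x * ((↑u⁻¹ : intRing C) : C) = 1 := by
      have := congrArg (Subtype.val) (Units.mul_inv u)
      simpa [hu] using this
    have h3 : ‖((↑u⁻¹ : intRing C) : C)‖ ≤ 1 := mem_intRing.mp (↑u⁻¹ : intRing C).2
    have := congrArg (‖·‖) h2
    simp only [norm_mul, norm_one] at this
    nlinarith [norm_nonneg ((↑u⁻¹ : intRing C) : C), norm_nonneg x]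

theorem res_eq_iff {x y : C} (hx : ‖x‖ ≤ 1) (hy : ‖y‖ ≤ 1) :
    res x = res y ↔ ‖x - y‖ < 1 := by
  rw [← sub_eq_zero, ← res_sub hx hy]
  refine res_eq_zero_iff ?_
  have := IsUltrametricDist.norm_add_le_max x (-y)
  rw [norm_neg, ← sub_eq_add_neg] at this
  exact this.trans (max_le hx hy)

theorem res_ne_zero_of_norm_eq_one {x : C} (hx : ‖x‖ = 1) : res x ≠ 0 := by
  rw [Ne, res_eq_zero_iff hx.le]; simp [hx]

end Vale.Agent.P217.Tors
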