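import Vale.Agent.P217.Tors.Phi
import Vale.Agent.P217.Tors.Residue
import Vale.Agent.P217.Tors.AddPoly

/-!
# P217: the residual additive polynomial of multiplication by `p ^ N` at a valuation `V`
-/

noncomputable section

namespace Vale.Agent.P217.Tors

set_option linter.unusedSectionVars false

variable {C : Type*} [NormedField C] [IsUltrametricDist C]

open DiscLaw.Pt
open scoped Classical

theorem charP_resid (p : ℕ) [Fact p.Prime] [CharP C p] : CharP (Resid C) p := by
  refine (CharP.charP_iff_prime_eq_zero Fact.out).mpr ?_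
  have h0 : (p : intRing C) = 0 := Subtype.ext (by push_cast; exact CharP.cast_eq_zero C p)
  rw [← map_natCast (IsLocalRing.residue (intRing C)), h0, map_zero]

theorem norm_div_le_one {x z : C} (hz : z ≠ 0) (h : x ≠ 0 → vv z ≤ vv x) : ‖x / z‖ ≤ 1 := by
  rcases eq_or_ne x 0 with rfl | hx
  · simp
  · rw [norm_div, div_le_one (norm_pos_iff.mpr hz)]
    exact (vv_le_iff hz hx).mp (h hx)

namespace Tower

variable {L : DiscLaw C} {p h d : ℕ} (T : Tower L p h d)

include T

theorem norm_div_geF {N : ℕ} {V : ℝ} {z : C} (hz : z ≠ 0) (hzV : vv z = V) {r : L.Pt}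
    (hr : r ∈ T.geF N V) : ‖r.val / z‖ ≤ 1 := by
  refine norm_div_le_one hz fun hr0 => ?_
  rw [geF, Finset.mem_filter] at hr
  have : r ≠ 0 := fun e => hr0 (by rw [e]; rfl)
  rw [hzV]
  exact hr.2.resolve_left this

/-- The residues of the torsion of valuation at least `V`. -/
def resGrp (N : ℕ) (V : ℝ) (z : C) : Finset (Resid C) :=
  (T.geF N V).image fun r => res (r.val / z)

theorem res_div_sub {N : ℕ} {V : ℝ} {z : C} (hz : z ≠ 0) (hzV : vv z = V) {r s : L.Pt}
    (hr : r ∈ T.geF N V) (hs : s ∈ T.geF N V) :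
    res ((r - s).val / z) = res (r.val / z) - res (s.val / z) := by
  have hd := T.norm_div_geF hz hzV (T.geF_sub_mem hr hs)
  have h1 := T.norm_div_geF hz hzV hr
  have h2 := T.norm_div_geF hz hzV hs
  have h3 : ‖r.val / z - s.val / z‖ ≤ 1 := by
    have := IsUltrametricDist.norm_add_le_max (r.val / z) (-(s.val / z))
    rw [norm_neg, ← sub_eq_add_neg] at this
    exact this.trans (max_le h1 h2)
  rw [← res_sub h1 h2, res_eq_iff hd h3]
  have hc : ‖L.add (r - s).val s.val - ((r - s).val + s.val)‖ ≤ ‖(r - s).val‖ * ‖s.val‖ :=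
    L.add_close _ _ (r - s).norm_lt s.norm_lt
  rw [← L.val_add, sub_add_cancel] at hc
  have heq : (r - s).val / z - (r.val / z - s.val / z)
      = - (r.val - ((r - s).val + s.val)) / z := by ring
  rw [heq, norm_div, norm_neg, div_lt_one (norm_pos_iff.mpr hz)]
  refine hc.trans_lt ?_
  have hd' : ‖(r - s).val‖ ≤ ‖z‖ := by
    rwa [norm_div, div_le_one (norm_pos_iff.mpr hz)] at hd
  calc ‖(r - s).val‖ * ‖s.val‖ ≤ ‖z‖ * ‖s.val‖ := by gcongr
    _ < ‖z‖ := mul_lt_of_lt_one_right (norm_pos_iff.mpr hz) s.norm_lt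

theorem res_div_eq_zero_iff {N : ℕ} {V : ℝ} {z : C} (hz : z ≠ 0) (hzV : vv z = V) {r : L.Pt}
    (hr : r ∈ T.geF N V) : res (r.val / z) = 0 ↔ r ∈ T.gtF N V := by
  rw [res_eq_zero_iff (T.norm_div_geF hz hzV hr), norm_div, div_lt_one (norm_pos_iff.mpr hz)]
  rw [geF, Finset.mem_filter] at hr
  rw [gtF, Finset.mem_filter]
  rcases eq_or_ne r 0 with h0 | h0
  · rw [h0, DiscLaw.val_zero, norm_zero]
    exact iff_of_true (norm_pos_iff.mpr hz) ⟨T.zero_mem_roots N, Or.inl rfl⟩
  · rw [← vv_lt_iff hz (val_ne_zero h0), hzV]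
    exact ⟨fun h => ⟨hr.1, Or.inr h⟩, fun h => h.2.resolve_left h0⟩

theorem resGrp_sub_mem {N : ℕ} {V : ℝ} {z : C} (hz : z ≠ 0) (hzV : vv z = V) {x y : Resid C}
    (hx : x ∈ T.resGrp N V z) (hy : y ∈ T.resGrp N V z) : x - y ∈ T.resGrp N V z := by
  obtain ⟨r, hr, rfl⟩ := Finset.mem_image.mp hx
  obtain ⟨s, hs, rfl⟩ := Finset.mem_image.mp hy
  exact Finset.mem_image.mpr ⟨r - s, T.geF_sub_mem hr hs, T.res_div_sub hz hzV hr hs⟩

theorem card_res_fibre {N : ℕ} {V : ℝ} {z : C} (hz : z ≠ 0) (hzV : vv z = V) {x : Resid C}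
    (hx : x ∈ T.resGrp N V z) :
    ((T.geF N V).filter fun r => res (r.val / z) = x).card = (T.gtF N V).card := by
  obtain ⟨r0, hr0, rfl⟩ := Finset.mem_image.mp hx
  refine Finset.card_bij' (fun r _ => r - r0) (fun r _ => r + r0) ?_ ?_ (by simp) (by simp)
  · intro r hr
    rw [Finset.mem_filter] at hr
    rw [← T.res_div_eq_zero_iff hz hzV (T.geF_sub_mem hr.1 hr0), T.res_div_sub hz hzV hr.1 hr0,
      hr.2, sub_self]
  · intro r hr
    have hge := T.gtF_subset_geF N V hr
    have h0 : (0 : L.Pt) ∈ T.geF N V := by simp [geF, T.zero_mem_roots]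
    have hneg : -r0 ∈ T.geF N V := by simpa using T.geF_sub_mem h0 hr0
    have hmem : r + r0 ∈ T.geF N V := by simpa using T.geF_sub_mem hge hneg
    rw [Finset.mem_filter]
    refine ⟨hmem, ?_⟩
    have := T.res_div_sub hz hzV hmem hr0
    rw [add_sub_cancel_right, (T.res_div_eq_zero_iff hz hzV hge).mpr hr] at this
    exact sub_eq_zero.mp this.symm

theorem card_resGrp {N : ℕ} {V : ℝ} {z : C} (hV : 0 < V) (hs : T.Stable N V) (hz : z ≠ 0)
    (hzV : vv z = V) : (T.resGrp N V z).card = p ^ (T.hi V - T.lo V) := by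
  have h1 := Finset.card_eq_sum_card_fiberwise (f := fun r : L.Pt => res (r.val / z))
    (s := T.geF N V) (t := T.resGrp N V z) fun r hr => Finset.mem_image_of_mem _ hr
  rw [Finset.sum_congr rfl fun x hx => T.card_res_fibre hz hzV hx, Finset.sum_const,
    smul_eq_mul, T.card_geF hV hs, T.card_gtF hV hs] at h1
  rw [← Nat.pow_div (T.lo_le_hi hV) T.prime.pos, h1,
    Nat.mul_div_cancel _ (pow_pos T.prime.pos _)]

/-- The normalising constant of `p ^ N • y` for `v y = V`. -/
def normConst (N : ℕ) (V : ℝ) (z : C) : C :=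
  (z ^ (T.geF N V).card * ∏ r ∈ T.roots N \ T.geF N V, -r.val) ^ p ^ (h * N)

theorem low_ne_zero {N : ℕ} {V : ℝ} {r : L.Pt} (hr : r ∈ T.roots N \ T.geF N V) :
    r ≠ 0 ∧ r.v < V := by
  rw [Finset.mem_sdiff, geF, Finset.mem_filter] at hr
  push Not at hr
  exact hr.2 hr.1

theorem normConst_ne_zero {N : ℕ} {V : ℝ} {z : C} (hz : z ≠ 0) : T.normConst N V z ≠ 0 :=
  pow_ne_zero _ (mul_ne_zero (pow_ne_zero _ hz) (Finset.prod_ne_zero_iff.mpr fun _ hr =>
    neg_ne_zero.mpr (val_ne_zero (T.low_ne_zero hr).1)))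

theorem vv_normConst {N : ℕ} {V : ℝ} {z : C} (hz : z ≠ 0) (hzV : vv z = V) :
    vv (T.normConst N V z) = T.phiN N V := by
  have hne : ∀ r ∈ T.roots N \ T.geF N V, -r.val ≠ 0 := fun r hr =>
    neg_ne_zero.mpr (val_ne_zero (T.low_ne_zero hr).1)
  rw [normConst, vv_pow, vv_mul (pow_ne_zero _ hz) (Finset.prod_ne_zero_iff.mpr hne), vv_pow,
    vv_prod _ _ hne, hzV, phiN, Nat.cast_pow]
  congr 1
  rw [← Finset.sum_sdiff (Finset.filter_subset _ (T.roots N) : T.geF N V ⊆ T.roots N), add_comm]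
  congr 1
  · refine Finset.sum_congr rfl fun r hr => ?_
    obtain ⟨h0, hlt⟩ := T.low_ne_zero hr
    rw [mn_of_ne h0, min_eq_right hlt.le, vv_neg]; rfl
  · rw [← nsmul_eq_mul, ← Finset.sum_const]
    refine Finset.sum_congr rfl fun r hr => ?_
    replace hr : r ∈ T.roots N ∧ (r = 0 ∨ V ≤ r.v) := by simpa [geF] using hr
    rcases eq_or_ne r 0 with h0 | h0
    · rw [h0, mn_zero]
    · rw [mn_of_ne h0, min_eq_left (hr.2.resolve_left h0)]

/-- The residual additive polynomial: its coefficients depend only on `N`, `V` and `z`. -/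
theorem residual [Fact p.Prime] [CharP C p] {N : ℕ} {V : ℝ} {z : C} (hV : 0 < V)
    (hs : T.Stable N V) (hz : z ≠ 0) (hzV : vv z = V) :
    ∃ c : ℕ → Resid C, c (T.hi V - T.lo V) = 1 ∧ c 0 ≠ 0 ∧
      ∀ y : L.Pt, ‖y.val‖ ≤ ‖z‖ →
        ‖(p ^ N • y).val / T.normConst N V z‖ ≤ 1 ∧
        res ((p ^ N • y).val / T.normConst N V z) =
          (letI := charP_resid (C := C) p
           addEval p (T.hi V - T.lo V) c (res (y.val / z))) ^ p ^ (h * N + T.lo V) := by
  have := charP_resid (C := C) p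
  have h0mem : (0 : Resid C) ∈ T.resGrp N V z :=
    Finset.mem_image.mpr ⟨0, by simp [geF, T.zero_mem_roots], by simp⟩
  obtain ⟨m, c, hcard, hcm, hprod⟩ := exists_addEval_eq_prod p (T.resGrp N V z) h0mem
    fun x hx y hy => T.resGrp_sub_mem hz hzV hx hy
  obtain rfl : m = T.hi V - T.lo V :=
    Nat.pow_right_injective T.prime.two_le (hcard.symm.trans (T.card_resGrp hV hs hz hzV))
  have hc0 : c 0 ≠ 0 := addEval_coeff_zero_ne_zero p (T.resGrp N V z) _ c hcm h0mem hcard
    fun x hx => by rw [← hprod]; exact Finset.prod_eq_zero hx (sub_self x)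
  refine ⟨c, hcm, hc0, fun y hy => ?_⟩
  have hyz : ‖y.val / z‖ ≤ 1 := by rwa [norm_div, div_le_one (norm_pos_iff.mpr hz)]
  have hA : ∀ r ∈ T.geF N V, ‖y.val / z - r.val / z‖ ≤ 1 := fun r hr => by
    have := IsUltrametricDist.norm_add_le_max (y.val / z) (-(r.val / z))
    rw [norm_neg, ← sub_eq_add_neg] at this
    exact this.trans (max_le hyz (T.norm_div_geF hz hzV hr))
  have hB : ∀ r ∈ T.roots N \ T.geF N V, ‖(y.val - r.val) / (-r.val)‖ ≤ 1 ∧
      res ((y.val - r.val) / (-r.val)) = 1 := by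
    intro r hr
    obtain ⟨h0, hlt⟩ := T.low_ne_zero hr
    have hr0 := val_ne_zero h0
    have hn : ‖z‖ < ‖r.val‖ := (vv_lt_iff hr0 hz).mp (by rw [hzV]; exact hlt)
    have he : (y.val - r.val) / (-r.val) = 1 + -(y.val / r.val) := by field_simp; ring
    have hy1 : ‖-(y.val / r.val)‖ < 1 := by
      rw [norm_neg, norm_div, div_lt_one (norm_pos_iff.mpr hr0)]
      exact hy.trans_lt hn
    rw [he, res_add (by simp) hy1.le, res_one, (res_eq_zero_iff hy1.le).mpr hy1, add_zero]
    exact ⟨(IsUltrametricDist.norm_add_le_max _ _).trans (max_le (by simp) hy1.le), rfl⟩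
  set Q : C := (∏ r ∈ T.geF N V, (y.val / z - r.val / z)) *
    ∏ r ∈ T.roots N \ T.geF N V, (y.val - r.val) / (-r.val) with hQdef
  have hQA : ‖∏ r ∈ T.geF N V, (y.val / z - r.val / z)‖ ≤ 1 := by
    rw [norm_prod]; exact Finset.prod_le_one (fun _ _ => norm_nonneg _) hA
  have hQB : ‖∏ r ∈ T.roots N \ T.geF N V, (y.val - r.val) / (-r.val)‖ ≤ 1 := by
    rw [norm_prod]; exact Finset.prod_le_one (fun _ _ => norm_nonneg _) fun r hr => (hB r hr).1
  have hQ : ‖Q‖ ≤ 1 := by
    rw [hQdef, norm_mul]; exact mul_le_one₀ hQA (norm_nonneg _) hQB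
  have hkey : (p ^ N • y).val / T.normConst N V z = T.unit N y * Q ^ p ^ (h * N) := by
    have hlow : (∏ r ∈ T.roots N \ T.geF N V, -r.val) ≠ 0 := Finset.prod_ne_zero_iff.mpr
      fun r hr => neg_ne_zero.mpr (val_ne_zero (T.low_ne_zero hr).1)
    rw [T.smul_eq, Finset.prod_pow, normConst, mul_div_assoc, ← div_pow]
    congr 2
    rw [hQdef, ← Finset.prod_sdiff (Finset.filter_subset _ (T.roots N) : T.geF N V ⊆ T.roots N),
      Finset.prod_div_distrib,
      Finset.prod_congr (s₁ := T.geF N V) rfl (f := fun r : L.Pt => y.val / z - r.val / z)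
        (g := fun r : L.Pt => (y.val - r.val) / z) fun r _ => (sub_div _ _ _).symm,
      Finset.prod_div_distrib, Finset.prod_const]
    field_simp
    exact mul_comm _ _
  have hQres : res Q = addEval p (T.hi V - T.lo V) c (res (y.val / z)) ^ p ^ T.lo V := by
    rw [hQdef, res_mul hQA hQB, res_prod _ _ hA, res_prod _ _ fun r hr => (hB r hr).1,
      Finset.prod_eq_one (s := T.roots N \ T.geF N V) fun r hr => (hB r hr).2, mul_one]
    rw [← hprod, ← Finset.prod_pow]
    rw [← Finset.prod_fiberwise_of_maps_to (g := fun r : L.Pt => res (r.val / z))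
      (t := T.resGrp N V z) fun r hr => Finset.mem_image_of_mem _ hr]
    refine Finset.prod_congr rfl fun e he => ?_
    rw [Finset.prod_congr rfl (g := fun _ => res (y.val / z) - e) fun r hr => by
      rw [Finset.mem_filter] at hr
      rw [res_sub hyz (T.norm_div_geF hz hzV hr.1), hr.2],
      Finset.prod_const, T.card_res_fibre hz hzV he, T.card_gtF hV hs]
  have hQn : ‖Q ^ p ^ (h * N)‖ ≤ 1 := by
    rw [norm_pow]; exact pow_le_one₀ (norm_nonneg _) hQ
  rw [hkey]
  refine ⟨by rw [norm_mul, T.norm_unit, one_mul]; exact hQn, ?_⟩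
  have hu : res (T.unit N y) = 1 := by
    rw [← res_one (C := C), res_eq_iff (T.norm_unit N y).le (by simp)]
    exact T.unit_close N y
  rw [res_mul (T.norm_unit N y).le hQn, hu, one_mul, res_pow hQ, hQres, ← pow_mul, ← pow_add,
    add_comm (h * N)]

end Tower

end Vale.Agent.P217.Tors
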