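import Vale.Agent.P217.Tors.Deep

/-!
# P217: lifted residual coefficients and the expansion of `p ^ N • η`
-/

noncomputable section

namespace Vale.Agent.P217.Tors

set_option linter.unusedSectionVars false

variable {C : Type*} [NormedField C] [IsUltrametricDist C]

open DiscLaw.Pt
open scoped Classical

theorem exists_res_eq (x : Resid C) : ∃ y : C, ‖y‖ ≤ 1 ∧ res y = x := by
  obtain ⟨⟨y, hy⟩, rfl⟩ := IsLocalRing.residue_surjective x
  exact ⟨y, mem_intRing.mp hy, res_of_le (mem_intRing.mp hy)⟩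

theorem norm_eq_one_of_res_ne_zero {y : C} (hy : ‖y‖ ≤ 1) (h : res y ≠ 0) : ‖y‖ = 1 := by
  by_contra hne
  exact h ((res_eq_zero_iff hy).mpr (lt_of_le_of_ne hy hne))

theorem norm_sum_le_one {ι : Type*} (s : Finset ι) (f : ι → C) (h : ∀ i ∈ s, ‖f i‖ ≤ 1) :
    ‖∑ i ∈ s, f i‖ ≤ 1 := by
  induction s using Finset.induction_on with
  | empty => simp
  | insert a s ha ih =>
    rw [Finset.sum_insert ha]
    exact (IsUltrametricDist.norm_add_le_max _ _).trans (max_le (h a (Finset.mem_insert_self a s))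
      (ih fun i hi => h i (Finset.mem_insert_of_mem hi)))

theorem res_sum {ι : Type*} (s : Finset ι) (f : ι → C) (h : ∀ i ∈ s, ‖f i‖ ≤ 1) :
    res (∑ i ∈ s, f i) = ∑ i ∈ s, res (f i) := by
  induction s using Finset.induction_on with
  | empty => simp
  | insert a s ha ih =>
    have hs : ∀ i ∈ s, ‖f i‖ ≤ 1 := fun i hi => h i (Finset.mem_insert_of_mem hi)
    rw [Finset.sum_insert ha, Finset.sum_insert ha,
      res_add (h a (Finset.mem_insert_self a s)) (norm_sum_le_one s f hs), ih hs]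

namespace Tower

variable {L : DiscLaw C} {p h d : ℕ} (T : Tower L p h d)

include T

theorem Phi_scale_iter (k : ℕ) {V : ℝ} (hV : 0 < V) (hVr : V ≤ T.rmin) :
    T.Phi V = ((p : ℝ) ^ h) ^ k * T.Phi (V / (p : ℝ) ^ ((h + d) * k)) := by
  induction k with
  | zero => simp
  | succ k ih =>
    have hp : (0 : ℝ) < (p : ℝ) ^ ((h + d) * (k + 1)) := pow_pos T.p_pos _
    have h1 := T.Phi_scale (div_pos hV hp)
      ((div_le_self hV.le (one_le_pow₀ T.one_lt_p.le)).trans hVr)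
    have h2 : (p : ℝ) ^ (h + d) * (V / (p : ℝ) ^ ((h + d) * (k + 1)))
        = V / (p : ℝ) ^ ((h + d) * k) := by
      have := (pow_pos T.p_pos (h + d)).ne'
      have := (pow_pos T.p_pos ((h + d) * k)).ne'
      rw [Nat.mul_succ, pow_add ((p : ℝ)) ((h + d) * k)]
      field_simp
    rw [h2] at h1
    rw [ih, h1, pow_succ]; ring

theorem chain_add (z : L.Pt) (i j : ℕ) : T.chain z (i + j) = T.chain (T.chain z j) i :=
  Function.iterate_add_apply _ i j z

theorem v_chain_mul_le {z : L.Pt} (hz : T.IsTors z) (h0 : z ≠ 0) (k : ℕ) :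
    (T.chain z k).v * (p : ℝ) ^ (h * k) ≤ z.v := by
  induction k with
  | zero => simp [chain_zero]
  | succ k ih =>
    have h1 := T.le_v_smul (y := T.chain z (k + 1))
      (by rw [T.smul_chain hz]; exact T.chain_ne_zero hz h0 k)
    rw [T.smul_chain hz] at h1
    calc (T.chain z (k + 1)).v * (p : ℝ) ^ (h * (k + 1))
        = ((p : ℝ) ^ h * (T.chain z (k + 1)).v) * (p : ℝ) ^ (h * k) := by
          rw [mul_add, mul_one, pow_add]; ring
      _ ≤ _ := le_trans (mul_le_mul_of_nonneg_right h1 (pow_nonneg T.p_pos.le _)) ih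

theorem v_le_smul_pos (N : ℕ) {η : L.Pt} {Vs : ℝ} (hVs : 0 < Vs)
    (hη : ‖η.val‖ ≤ Real.exp (-Vs)) :
    ‖(p ^ N • η).val‖ ≤ Real.exp (-T.phiN N Vs) := by
  by_cases hm : η ∈ T.roots N
  · rw [(T.mem_roots N η).mp hm, DiscLaw.val_zero, norm_zero]
    exact (Real.exp_pos _).le
  have hη0 : η ≠ 0 := fun e => hm (e ▸ T.zero_mem_roots N)
  have hv : Vs ≤ η.v := by
    rw [v, vv, le_neg, Real.log_le_iff_le_exp (norm_pos_iff.mpr (val_ne_zero hη0))]
    exact hη
  have h1 : T.phiN N Vs ≤ (p ^ N • η).v := (T.phiN_mono N hv).trans (T.phiN_le_v_smul N hm)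
  have hne : p ^ N • η ≠ 0 := fun e => hm ((T.mem_roots N η).mpr e)
  rwa [v, vv, le_neg, Real.log_le_iff_le_exp (norm_pos_iff.mpr (val_ne_zero hne))] at h1

section Coeffs

variable [Fact p.Prime] [CharP C p]

theorem exists_coeffs (N : ℕ) (V : ℝ) (z : C) : ∃ c : ℕ → C, (∀ i, ‖c i‖ ≤ 1) ∧
    (0 < V → T.Stable N V → z ≠ 0 → vv z = V →
      ‖c (T.hi V - T.lo V)‖ = 1 ∧ ‖c 0‖ = 1 ∧
      ∀ η : L.Pt, ∀ u : C, ‖u‖ ≤ 1 → ‖η.val - u * z‖ < ‖z‖ →
        ‖(p ^ N • η).val - T.normConst N V z *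
          (∑ i ∈ Finset.range (T.hi V - T.lo V + 1), c i * u ^ p ^ i) ^ p ^ (h * N + T.lo V)‖
          < ‖T.normConst N V z‖) := by
  by_cases hh : 0 < V ∧ T.Stable N V ∧ z ≠ 0 ∧ vv z = V
  swap
  · exact ⟨fun _ => 0, fun _ => by simp, fun a b c d => absurd ⟨a, b, c, d⟩ hh⟩
  obtain ⟨hV, hs, hz, hzV⟩ := hh
  obtain ⟨c, hcm, hc0, hres⟩ := T.residual hV hs hz hzV
  choose f hf hfr using fun i => exists_res_eq (c i)
  refine ⟨f, hf, fun _ _ _ _ => ⟨norm_eq_one_of_res_ne_zero (hf _) (by rw [hfr, hcm]; simp),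
    norm_eq_one_of_res_ne_zero (hf _) (by rw [hfr]; exact hc0), fun η u hu hη => ?_⟩⟩
  have hηz : ‖η.val‖ ≤ ‖z‖ := by
    calc ‖η.val‖ = ‖(η.val - u * z) + u * z‖ := by rw [sub_add_cancel]
      _ ≤ ‖z‖ := (IsUltrametricDist.norm_add_le_max _ _).trans (max_le hη.le
          (by rw [norm_mul]; exact mul_le_of_le_one_left (norm_nonneg _) hu))
  obtain ⟨hb, hbres⟩ := hres η hηz
  have hηz1 : ‖η.val / z‖ ≤ 1 := by rwa [norm_div, div_le_one (norm_pos_iff.mpr hz)]
  have hru : res (η.val / z) = res u := by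
    rw [res_eq_iff hηz1 hu]
    have : η.val / z - u = (η.val - u * z) / z := by field_simp
    rwa [this, norm_div, div_lt_one (norm_pos_iff.mpr hz)]
  set S := ∑ i ∈ Finset.range (T.hi V - T.lo V + 1), f i * u ^ p ^ i with hS
  have hterm : ∀ i ∈ Finset.range (T.hi V - T.lo V + 1), ‖f i * u ^ p ^ i‖ ≤ 1 := fun i _ => by
    rw [norm_mul, norm_pow]
    exact mul_le_one₀ (hf i) (pow_nonneg (norm_nonneg _) _) (pow_le_one₀ (norm_nonneg _) hu)
  have hSn : ‖S‖ ≤ 1 := norm_sum_le_one _ _ hterm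
  have hSp : ‖S ^ p ^ (h * N + T.lo V)‖ ≤ 1 := by
    rw [norm_pow]; exact pow_le_one₀ (norm_nonneg _) hSn
  have hSres : res (S ^ p ^ (h * N + T.lo V)) = res ((p ^ N • η).val / T.normConst N V z) := by
    rw [res_pow hSn, hbres, hS, res_sum _ _ hterm, addEval]
    congr 1
    refine Finset.sum_congr rfl fun i _ => ?_
    rw [res_mul (hf i) (by rw [norm_pow]; exact pow_le_one₀ (norm_nonneg _) hu), res_pow hu, hfr,
      hru]
  have hK := T.normConst_ne_zero (N := N) (V := V) hz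
  have hlt := (res_eq_iff hb hSp).mp hSres.symm
  calc ‖(p ^ N • η).val - T.normConst N V z * S ^ p ^ (h * N + T.lo V)‖
      = ‖T.normConst N V z *
          ((p ^ N • η).val / T.normConst N V z - S ^ p ^ (h * N + T.lo V))‖ := by
        rw [mul_sub, mul_div_cancel₀ _ hK]
    _ < ‖T.normConst N V z‖ := by
        rw [norm_mul]; exact mul_lt_of_lt_one_right (norm_pos_iff.mpr hK) hlt

/-- Lifts of the residual coefficients. -/
def coeffs (N : ℕ) (V : ℝ) (z : C) : ℕ → C := (T.exists_coeffs N V z).choose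

/-- The coefficient of the `κ`-th character in `p ^ N • η` for `η ≈ a * lam * z`. -/
def rowCoeff (N : ℕ) (V : ℝ) (z lam : C) (κ : ℤ) : C :=
  T.normConst N V z * T.coeffs N V z (κ - T.lo V).toNat ^ p ^ (h * N + T.lo V) *
    lam ^ p ^ (h * N + κ.toNat)

theorem norm_rowCoeff_le (N : ℕ) (V : ℝ) (z : C) {lam : C} (hlam : ‖lam‖ = 1) (κ : ℤ) :
    ‖T.rowCoeff N V z lam κ‖ ≤ ‖T.normConst N V z‖ := by
  rw [rowCoeff, norm_mul, norm_mul, norm_pow, norm_pow, hlam, one_pow, mul_one]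
  exact mul_le_of_le_one_right (norm_nonneg _)
    (pow_le_one₀ (norm_nonneg _) ((T.exists_coeffs N V z).choose_spec.1 _))

theorem norm_rowCoeff_ends {N : ℕ} {V : ℝ} {z : C} (hV : 0 < V) (hs : T.Stable N V) (hz : z ≠ 0)
    (hzV : vv z = V) {lam : C} (hlam : ‖lam‖ = 1) :
    ‖T.rowCoeff N V z lam (T.lo V)‖ = ‖T.normConst N V z‖ ∧
      ‖T.rowCoeff N V z lam (T.hi V)‖ = ‖T.normConst N V z‖ := by
  obtain ⟨h1, h0, -⟩ := (T.exists_coeffs N V z).choose_spec.2 hV hs hz hzV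
  have := T.lo_le_hi hV
  constructor
  · rw [rowCoeff, sub_self, Int.toNat_zero, norm_mul, norm_mul, norm_pow, norm_pow,
      show ‖T.coeffs N V z 0‖ = 1 from h0, hlam, one_pow, one_pow, mul_one, mul_one]
  · rw [rowCoeff, show ((T.hi V : ℤ) - T.lo V).toNat = T.hi V - T.lo V by omega, norm_mul,
      norm_mul, norm_pow, norm_pow, show ‖T.coeffs N V z (T.hi V - T.lo V)‖ = 1 from h1, hlam,
      one_pow, one_pow, mul_one, mul_one]

theorem norm_smul_sub_rowSum {N : ℕ} {V : ℝ} {z : C} (hV : 0 < V) (hs : T.Stable N V) (hz : z ≠ 0)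
    (hzV : vv z = V) {η : L.Pt} {a lam : C} (ha : ‖a‖ ≤ 1) (hlam : ‖lam‖ = 1)
    (hη : ‖η.val - a * (lam * z)‖ < ‖z‖) :
    ‖(p ^ N • η).val - ∑ κ ∈ Finset.Icc (T.lo V : ℤ) (T.hi V),
        T.rowCoeff N V z lam κ * a ^ p ^ (h * N + κ.toNat)‖ < ‖T.normConst N V z‖ := by
  obtain ⟨-, -, hmain⟩ := (T.exists_coeffs N V z).choose_spec.2 hV hs hz hzV
  have hu : ‖a * lam‖ ≤ 1 := by rw [norm_mul, hlam, mul_one]; exact ha
  have hmn := hmain η (a * lam) hu (by rwa [mul_assoc])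
  have hle := T.lo_le_hi hV
  convert hmn using 3
  rw [sum_pow_char_pow, Finset.mul_sum]
  refine (Finset.sum_bij (fun i _ => ((T.lo V + i : ℕ) : ℤ)) ?_ ?_ ?_ ?_).symm
  · intro i hi; simp only [Finset.mem_range] at hi; simp only [Finset.mem_Icc]; omega
  · intro i _ j _ e; have e' : ((T.lo V + i : ℕ) : ℤ) = ((T.lo V + j : ℕ) : ℤ) := e; omega
  · intro κ hκ; simp only [Finset.mem_Icc] at hκ
    exact ⟨(κ - T.lo V).toNat, by simp only [Finset.mem_range]; omega, by omega⟩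
  · intro i _
    rw [rowCoeff, show (((T.lo V + i : ℕ) : ℤ) - T.lo V).toNat = i by omega, Int.toNat_natCast,
      mul_pow, ← pow_mul, ← pow_add, show i + (h * N + T.lo V) = h * N + (T.lo V + i) by ring,
      mul_pow]
    unfold coeffs
    ring

end Coeffs

end Tower

end Vale.Agent.P217.Tors
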