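import Vale.Agent.P217.Tors.Deep

/-!
# P217: the choice of rows in one period below the `p`-torsion
-/

noncomputable section

namespace Vale.Agent.P217.Tors

set_option linter.unusedSectionVars false

variable {C : Type*} [NormedField C] [IsUltrametricDist C]

open DiscLaw.Pt
open scoped Classical

namespace Tower

variable {L : DiscLaw C} {p h d : ℕ} (T : Tower L p h d)

include T

/-- The bottom of the period just below the `p`-torsion. -/
def wbot : ℝ := T.rmin / (p : ℝ) ^ (h + d)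

theorem wbot_pos : 0 < T.wbot := div_pos T.rmin_pos (pow_pos T.p_pos _)

theorem wbot_lt : T.wbot < T.rmin := div_lt_self T.rmin_pos T.one_lt_pn

/-- Nonzero torsion in the period just below the `p`-torsion. -/
def InWindow (z : L.Pt) : Prop := T.IsTors z ∧ z ≠ 0 ∧ T.wbot ≤ z.v ∧ z.v < T.rmin

theorem exists_inWindow {y : L.Pt} (hy : T.IsTors y) (hy0 : y ≠ 0) (hv : y.v < T.rmin) :
    ∃ z, T.InWindow z ∧ ∃ j : ℕ, z.v = ((p ^ j : ℕ) : ℝ) * y.v := by
  suffices H : ∀ k : ℕ, ∀ y : L.Pt, T.IsTors y → y ≠ 0 → y.v < T.rmin →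
      T.wbot ≤ ((p : ℝ) ^ (h + d)) ^ k * y.v →
      ∃ z, T.InWindow z ∧ ∃ j : ℕ, z.v = ((p ^ j : ℕ) : ℝ) * y.v by
    obtain ⟨k, hk⟩ := pow_unbounded_of_one_lt (T.wbot / y.v) T.one_lt_pn
    exact H k y hy hy0 hv ((div_le_iff₀ (v_pos hy0)).mp hk.le)
  intro k
  induction k with
  | zero => exact fun y hy hy0 hv hb => ⟨y, ⟨hy, hy0, by simpa using hb, hv⟩, 0, by simp⟩
  | succ k ih =>
    intro y hy hy0 hv hb
    by_cases hw : T.wbot ≤ y.v
    · exact ⟨y, ⟨hy, hy0, hw, hv⟩, 0, by simp⟩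
    obtain ⟨hne, he⟩ := T.v_smul_deep hy0 hv
    have hlt : (p • y).v < T.rmin := by
      rw [he, mul_comm]; exact (lt_div_iff₀ (pow_pos T.p_pos _)).mp (not_le.mp hw)
    obtain ⟨M, hM⟩ := hy
    have ht : T.IsTors (p • y) := by
      refine ⟨M, ?_⟩; rw [T.mem_roots] at hM ⊢; rw [smul_comm, hM, smul_zero]
    obtain ⟨z, hz, j, hj⟩ := ih (p • y) ht hne hlt (by rwa [he, ← mul_assoc, ← pow_succ])
    exact ⟨z, hz, j + (h + d), by rw [hj, he, pow_add]; push_cast; ring⟩

/-- Below an irrational `p`-torsion valuation the greatest preimages stay irrational. -/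
theorem exists_irrational_window (hirr : ∃ r ∈ T.roots 1, r ≠ 0 ∧ Irrational r.v) :
    ∃ z, T.InWindow z ∧ Irrational z.v := by
  obtain ⟨r, hr, hr0, hri⟩ := hirr
  have hne : (T.nz.filter fun r => Irrational r.v).Nonempty :=
    ⟨r, Finset.mem_filter.mpr ⟨T.mem_nz.mpr ⟨hr, hr0⟩, hri⟩⟩
  obtain ⟨r1, hr1, hmin⟩ := Finset.exists_min_image _ (fun r : L.Pt => r.v) hne
  rw [Finset.mem_filter, T.mem_nz] at hr1
  suffices H : ∀ k : ℕ, ∃ y, T.IsTors y ∧ y ≠ 0 ∧ Irrational y.v ∧
      y.v * (p : ℝ) ^ (h * k) ≤ r1.v by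
    obtain ⟨k, hk⟩ := pow_unbounded_of_one_lt (r1.v / T.rmin) T.one_lt_ph
    obtain ⟨y, hy, hy0, hyi, hyk⟩ := H k
    have hlt : y.v < T.rmin := by
      rw [div_lt_iff₀ T.rmin_pos] at hk
      rw [pow_mul] at hyk
      refine lt_of_mul_lt_mul_right (hyk.trans_lt ?_) (pow_nonneg (pow_nonneg T.p_pos.le _) k)
      rwa [mul_comm]
    obtain ⟨z, hz, j, hj⟩ := T.exists_inWindow hy hy0 hlt
    exact ⟨z, hz, hj ▸ hyi.natCast_mul (pow_ne_zero j T.prime.ne_zero)⟩
  intro k
  induction k with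
  | zero => exact ⟨r1, ⟨1, hr1.1.1⟩, hr1.1.2, hr1.2, by simp⟩
  | succ k ih =>
    obtain ⟨z, ⟨M, hM⟩, hz0, hzi, hzk⟩ := ih
    obtain ⟨y0, hy0, hy0z⟩ := T.exists_preimage hM
    obtain ⟨y, hy, hmax⟩ := Finset.exists_max_image ((T.roots (M + 1)).filter fun y => p • y = z)
      (fun y : L.Pt => y.v) ⟨y0, Finset.mem_filter.mpr ⟨hy0, hy0z⟩⟩
    rw [Finset.mem_filter] at hy
    have hyne := T.ne_zero_of_smul hy.2 hz0
    have hyr : y ∉ T.roots 1 := fun hm =>
      hz0 (by rw [← hy.2]; simpa using (T.mem_roots 1 y).mp hm)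
    have hgen : ∀ s ∈ T.roots 1, vv (y.val - s.val) ≤ y.v := by
      intro s hs
      have hne' : y ≠ s := fun e => hyr (e ▸ hs)
      rw [vv_sub_eq_v_sub hne']
      refine hmax _ (Finset.mem_filter.mpr ⟨T.sub_mem_roots hy.1
        (T.roots_mono (Nat.succ_le_succ (Nat.zero_le M)) hs), ?_⟩)
      have hs0 : p • s = 0 := by simpa using (T.mem_roots 1 s).mp hs
      rw [nsmul_sub, hy.2, hs0, sub_zero]
    have hphi := T.v_smul_eq_phiN 1 hyr hgen
    rw [pow_one, hy.2] at hphi
    have hstep : (p : ℝ) ^ h * y.v ≤ z.v := by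
      have := T.le_v_smul (y := y) (by rw [hy.2]; exact hz0); rwa [hy.2] at this
    have hle : y.v < r1.v := by
      have h1 : z.v ≤ r1.v := le_trans (le_mul_of_one_le_right (v_pos hz0).le
        (one_le_pow₀ T.one_lt_p.le)) hzk
      exact (lt_mul_of_one_lt_left (v_pos hyne) T.one_lt_ph).trans_le (hstep.trans h1)
    refine ⟨y, ⟨M + 1, hy.1⟩, hyne, ?_, ?_⟩
    · intro hrat
      obtain ⟨q, hq⟩ := hrat
      refine hzi ?_
      have hmn : ∀ s ∈ T.roots 1, mn y.v s ∈ (Rat.castHom ℝ).fieldRange := by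
        intro s hs
        rcases eq_or_ne s 0 with h0 | h0
        · rw [h0, mn_zero]; exact ⟨q, hq⟩
        rw [mn_of_ne h0]
        by_cases hsi : Irrational s.v
        · rw [min_eq_left (hle.le.trans (hmin s (Finset.mem_filter.mpr
            ⟨T.mem_nz.mpr ⟨hs, h0⟩, hsi⟩)))]
          exact ⟨q, hq⟩
        · obtain ⟨q', hq'⟩ := not_not.mp hsi
          rcases min_choice y.v s.v with e | e <;> rw [e]
          · exact ⟨q, hq⟩
          · exact ⟨q', hq'⟩
      have hmem : T.phiN 1 y.v ∈ (Rat.castHom ℝ).fieldRange :=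
        mul_mem (pow_mem (natCast_mem _ p) _) (sum_mem hmn)
      rw [← hphi] at hmem
      obtain ⟨q', hq'⟩ := hmem
      exact ⟨q', hq'⟩
    · calc y.v * (p : ℝ) ^ (h * (k + 1)) = ((p : ℝ) ^ h * y.v) * (p : ℝ) ^ (h * k) := by
            rw [mul_add, mul_one, pow_add]; ring
        _ ≤ z.v * (p : ℝ) ^ (h * k) := mul_le_mul_of_nonneg_right hstep (pow_nonneg T.p_pos.le _)
        _ ≤ r1.v := hzk

/-- The valuations occurring in the window. -/
def wvals : Finset ℝ :=
  ((T.geF (T.N0 T.wbot) T.wbot).filter fun r => r ≠ 0 ∧ r.v < T.rmin).image fun r => r.v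

theorem v_mem_wvals {z : L.Pt} (hz : T.InWindow z) : z.v ∈ T.wvals := by
  obtain ⟨⟨M, hM⟩, h0, h1, h2⟩ := hz
  refine Finset.mem_image.mpr ⟨z, Finset.mem_filter.mpr ⟨?_, h0, h2⟩, rfl⟩
  have hs := T.stable_N0 T.wbot_pos
  rw [← T.geF_eq hs (le_max_left _ M), geF, Finset.mem_filter]
  exact ⟨T.roots_mono (le_max_right _ _) hM, Or.inr h1⟩

theorem exists_of_mem_wvals {V : ℝ} (hV : V ∈ T.wvals) : ∃ z, T.InWindow z ∧ z.v = V := by
  obtain ⟨r, hr, rfl⟩ := Finset.mem_image.mp hV
  rw [Finset.mem_filter, geF, Finset.mem_filter] at hr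
  exact ⟨r, ⟨⟨_, hr.1.1⟩, hr.2.1, hr.1.2.resolve_left hr.2.1, hr.2.2⟩, rfl⟩

/-- Telescoping over the valuations of a window. -/
theorem hi_le_sum (k : ℕ) : ∀ V, T.wbot ≤ V → V ≤ T.rmin →
    (T.wvals.filter fun x => V ≤ x).card ≤ k →
    T.hi V ≤ T.hi T.rmin + ∑ x ∈ T.wvals with V ≤ x, (T.hi x - T.lo x) := by
  induction k using Nat.strong_induction_on with
  | _ k ih =>
    intro V hVb hVr hcard
    have hV : 0 < V := T.wbot_pos.trans_le hVb
    obtain ⟨N, hN⟩ := T.exists_stable hV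
    rcases (T.wvals.filter fun x => V ≤ x).eq_empty_or_nonempty with he | hne
    · refine le_trans ?_ (Nat.le_add_right _ _)
      have hsub : T.geF N V ⊆ T.geF N T.rmin := by
        intro r hr
        simp only [geF, Finset.mem_filter] at hr ⊢
        refine ⟨hr.1, ?_⟩
        rcases hr.2 with h0 | h1
        · exact Or.inl h0
        by_contra hc
        push Not at hc
        have : r.v ∈ T.wvals.filter fun x => V ≤ x := Finset.mem_filter.mpr
          ⟨T.v_mem_wvals ⟨⟨N, hr.1⟩, hc.1, hVb.trans h1, hc.2⟩, h1⟩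
        rw [he] at this; simp at this
      have := Finset.card_le_card hsub
      rw [T.card_geF hV hN, T.card_geF T.rmin_pos (T.stable_mono hV hN le_rfl hVr)] at this
      exact (Nat.pow_le_pow_iff_right T.prime.one_lt).mp this
    · set x := (T.wvals.filter fun x => V ≤ x).min' hne with hx
      have hxm := Finset.min'_mem _ hne
      rw [← hx, Finset.mem_filter] at hxm
      obtain ⟨z, hz, hzx⟩ := T.exists_of_mem_wvals hxm.1
      have hxb : T.wbot ≤ x := hzx ▸ hz.2.2.1
      have hxr : x < T.rmin := hzx ▸ hz.2.2.2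
      have hxpos : 0 < x := T.wbot_pos.trans_le hxb
      have hgap : ∀ r ∈ T.roots N, r ≠ 0 → V ≤ r.v → x ≤ r.v := by
        intro r hr h0 h1
        rcases lt_or_ge r.v T.rmin with hlt | hge
        · exact Finset.min'_le _ _ (Finset.mem_filter.mpr
            ⟨T.v_mem_wvals ⟨⟨N, hr⟩, h0, hVb.trans h1, hlt⟩, h1⟩)
        · exact hxr.le.trans hge
      have e1 : T.hi V ≤ T.hi x := by
        have hsub : T.geF N V ⊆ T.geF N x := by
          intro r hr
          simp only [geF, Finset.mem_filter] at hr ⊢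
          refine ⟨hr.1, ?_⟩
          by_cases h0 : r = 0
          · exact Or.inl h0
          · exact Or.inr (hgap r hr.1 h0 (hr.2.resolve_left h0))
        have := Finset.card_le_card hsub
        rw [T.card_geF hV hN, T.card_geF hxpos (T.stable_mono hV hN le_rfl hxm.2)] at this
        exact (Nat.pow_le_pow_iff_right T.prime.one_lt).mp this
      -- the next value
      obtain ⟨y, hxy, hyr, hfil, hgt⟩ : ∃ y, x < y ∧ y ≤ T.rmin ∧
          (T.wvals.filter fun w => y ≤ w) = (T.wvals.filter fun w => V ≤ w).erase x ∧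
          T.gtF N x ⊆ T.geF N y := by
        have key : ∀ y, x < y → (∀ w ∈ T.wvals, x < w → y ≤ w) → y ≤ T.rmin →
            (T.wvals.filter fun w => y ≤ w) = (T.wvals.filter fun w => V ≤ w).erase x ∧
            T.gtF N x ⊆ T.geF N y := by
          intro y hxy hy hyr
          constructor
          · ext w
            simp only [Finset.mem_filter, Finset.mem_erase]
            refine ⟨fun ⟨hw, hyw⟩ => ⟨(hxy.trans_le hyw).ne', hw, (hxm.2.trans hxy.le).trans hyw⟩,
              fun ⟨hne', hw, hVw⟩ => ⟨hw, hy w hw (lt_of_le_of_ne ?_ hne'.symm)⟩⟩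
            exact Finset.min'_le _ _ (Finset.mem_filter.mpr ⟨hw, hVw⟩)
          · intro r hr
            simp only [geF, gtF, Finset.mem_filter] at hr ⊢
            refine ⟨hr.1, ?_⟩
            by_cases h0 : r = 0
            · exact Or.inl h0
            have h1 := hr.2.resolve_left h0
            rcases lt_or_ge r.v T.rmin with hlt | hge
            · exact Or.inr (hy _ (T.v_mem_wvals ⟨⟨N, hr.1⟩, h0, hxb.trans h1.le, hlt⟩) h1)
            · exact Or.inr (hyr.trans hge)
        rcases (T.wvals.filter fun w => x < w).eq_empty_or_nonempty with he | hne2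
        · exact ⟨T.rmin, hxr, le_rfl, key _ hxr (fun w hw hxw => by
            have : w ∈ T.wvals.filter fun w => x < w := Finset.mem_filter.mpr ⟨hw, hxw⟩
            rw [he] at this; simp at this) le_rfl⟩
        · have hm := Finset.min'_mem _ hne2
          rw [Finset.mem_filter] at hm
          obtain ⟨z', hz', hz'x⟩ := T.exists_of_mem_wvals hm.1
          refine ⟨_, hm.2, hz'x ▸ hz'.2.2.2.le, key _ hm.2 (fun w hw hxw =>
            Finset.min'_le _ _ (Finset.mem_filter.mpr ⟨hw, hxw⟩)) (hz'x ▸ hz'.2.2.2.le)⟩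
      have hxmem : x ∈ T.wvals.filter fun w => V ≤ w := Finset.mem_filter.mpr hxm
      have e2 : T.lo x ≤ T.hi y := by
        have := Finset.card_le_card hgt
        rw [T.card_gtF hxpos (T.stable_mono hV hN le_rfl hxm.2),
          T.card_geF (hxpos.trans hxy) (T.stable_mono hV hN le_rfl (hxm.2.trans hxy.le))] at this
        exact (Nat.pow_le_pow_iff_right T.prime.one_lt).mp this
      have hlt : (T.wvals.filter fun w => y ≤ w).card < k := by
        rw [hfil]
        exact (Finset.card_erase_lt_of_mem hxmem).trans_le hcard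
      have h3 := ih _ hlt y (hxb.trans hxy.le) hyr le_rfl
      rw [hfil] at h3
      rw [← Finset.add_sum_erase _ _ hxmem]
      have := T.lo_le_hi hxpos
      omega

/-- The rows: `c + 1` torsion points of one period, with pairwise different valuations except
possibly for one pair with independent residues. -/
theorem exists_rows [Fact p.Prime] [CharP C p] {c : ℕ} (s : Finset ℝ) (hsc : s.card + 1 = c)
    (hcd : c < d)
    (hs : ∀ ρ ∈ s, ρ < (p : ℝ) ^ (h + d) * T.rmin ∧ ¬ Irrational ρ ∧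
      ∃ r ∈ T.roots 1, r ≠ 0 ∧ r.v = ρ)
    (hirr : ∃ r ∈ T.roots 1, r ≠ 0 ∧ Irrational r.v) :
    ∃ (z : Fin (c + 1) → L.Pt) (a b : Fin (c + 1)), (∀ i, T.InWindow (z i)) ∧
      (∀ i j, i ≠ j → ¬(i = a ∧ j = b) → ¬(i = b ∧ j = a) → (z i).v ≠ (z j).v) ∧
      (a ≠ b → (z a).v = (z b).v ∧ ∀ j : ℕ, ‖(z b).val / (z a).val - (j : C)‖ = 1) := by
  obtain ⟨zi, hzi, hzirr⟩ := T.exists_irrational_window hirr
  have hout : ∀ ρ ∈ s, ρ / (p : ℝ) ^ (h + d) ∈ T.wvals := by
    intro ρ hρ
    obtain ⟨hlt, -, r, hr, hr0, rfl⟩ := hs ρ hρ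
    obtain ⟨y, hy, hyr⟩ := T.exists_preimage hr
    obtain ⟨he, hyl⟩ := T.v_preimage hyr hr0 hlt
    rw [← he]
    refine T.v_mem_wvals ⟨⟨_, hy⟩, T.ne_zero_of_smul hyr hr0, ?_, hyl⟩
    rw [he, wbot]
    exact div_le_div_of_nonneg_right (T.rmin_le hr hr0) (pow_nonneg T.p_pos.le _)
  set S : Finset ℝ := insert zi.v (s.image fun ρ => ρ / (p : ℝ) ^ (h + d)) with hS
  have hnotmem : zi.v ∉ s.image fun ρ => ρ / (p : ℝ) ^ (h + d) := by
    intro hm
    obtain ⟨ρ, hρ, he⟩ := Finset.mem_image.mp hm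
    obtain ⟨q, rfl⟩ := not_not.mp (hs ρ hρ).2.1
    exact hzirr ⟨q / (p : ℚ) ^ (h + d), by rw [← he]; push_cast; rfl⟩
  have hScard : S.card = c := by
    rw [hS, Finset.card_insert_of_notMem hnotmem, Finset.card_image_of_injective _ fun a b e =>
      (div_left_inj' (pow_ne_zero _ T.p_pos.ne')).mp e, hsc]
  have hSsub : S ⊆ T.wvals := by
    intro x hx
    rcases Finset.mem_insert.mp hx with rfl | hx
    · exact T.v_mem_wvals hzi
    · obtain ⟨ρ, hρ, rfl⟩ := Finset.mem_image.mp hx; exact hout ρ hρ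
  choose! f hf hfv using fun V (hV : V ∈ T.wvals) => T.exists_of_mem_wvals hV
  rcases lt_or_ge c T.wvals.card with hlt | hge
  · -- enough classes
    obtain ⟨u, hu, hucard⟩ := Finset.exists_subset_card_eq (Nat.succ_le_of_lt hlt)
    let e := (u.equivFinOfCardEq hucard).symm
    refine ⟨fun i => f (e i), 0, 0, fun i => hf _ (hu (e i).2), fun i j hij _ _ he => hij ?_,
      fun hne => (hne rfl).elim⟩
    rw [hfv _ (hu (e i).2), hfv _ (hu (e j).2)] at he
    exact e.injective (Subtype.ext he)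
  · have hSw : S = T.wvals := Finset.eq_of_subset_of_card_le hSsub (hScard ▸ hge)
    obtain ⟨x, hx, hx2⟩ : ∃ x ∈ T.wvals, 2 ≤ T.hi x - T.lo x := by
      by_contra hno
      push Not at hno
      have h1 := T.hi_le_sum _ T.wbot le_rfl T.wbot_lt.le le_rfl
      have h2 : ∑ x ∈ T.wvals with T.wbot ≤ x, (T.hi x - T.lo x) ≤ c := by
        calc ∑ x ∈ T.wvals with T.wbot ≤ x, (T.hi x - T.lo x)
            ≤ ∑ x ∈ T.wvals with T.wbot ≤ x, 1 :=
              Finset.sum_le_sum fun x hx => Nat.le_of_lt_succ (hno x (Finset.mem_filter.mp hx).1)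
          _ ≤ T.wvals.card := by simp [Finset.card_filter_le]
          _ = c := by rw [← hSw, hScard]
      have h3 := (T.lo_hi_scale T.wbot_pos T.wbot_lt).2
      rw [wbot, mul_div_cancel₀ _ (pow_ne_zero _ T.p_pos.ne')] at h3
      rw [wbot] at h1 h2
      omega
    let e := (T.wvals.equivFinOfCardEq (hSw ▸ hScard : T.wvals.card = c)).symm
    obtain ⟨z0, hz0w, hz0x⟩ := T.exists_of_mem_wvals hx
    have hxpos : 0 < x := hz0x ▸ v_pos hz0w.2.1
    have hza : T.InWindow (f x) := hf x hx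
    have hzav : (f x).v = x := hfv x hx
    obtain ⟨N, hN⟩ := T.exists_stable hxpos
    have hz : (f x).val ≠ 0 := val_ne_zero hza.2.1
    have hzV : vv (f x).val = x := hzav
    have hcardE := T.card_resGrp hxpos hN hz hzV
    have := charP_resid (C := C) p
    obtain ⟨ε, hεE, hε⟩ : ∃ ε ∈ T.resGrp N x (f x).val, ∀ j : ℕ, ε ≠ (j : Resid C) := by
      by_contra hno
      push Not at hno
      have hsub : T.resGrp N x (f x).val ⊆
          (Finset.range p).image (fun j : ℕ => (j : Resid C)) := fun ε hε => by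
        obtain ⟨j, rfl⟩ := hno ε hε
        exact Finset.mem_image.mpr ⟨j % p, Finset.mem_range.mpr (Nat.mod_lt _ T.prime.pos),
          CharP.cast_eq_mod (Resid C) p j |>.symm⟩
      have h1 := (Finset.card_le_card hsub).trans Finset.card_image_le
      rw [hcardE, Finset.card_range] at h1
      have := (Nat.pow_lt_pow_right T.prime.one_lt (show 1 < T.hi x - T.lo x by omega))
      rw [pow_one] at this
      omega
    obtain ⟨r, hr, hrε⟩ := Finset.mem_image.mp hεE
    have hrn : ‖r.val / (f x).val‖ ≤ 1 := T.norm_div_geF hz hzV hr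
    have hgt : r ∉ T.gtF N x := fun hm => hε 0 (by
      rw [← hrε, Nat.cast_zero]; exact (T.res_div_eq_zero_iff hz hzV hr).mpr hm)
    have hr0 : r ≠ 0 := fun h0 => hgt (by rw [h0]; simp [gtF, T.zero_mem_roots])
    rw [geF, Finset.mem_filter] at hr
    have hrv : r.v = x := le_antisymm
      (not_lt.mp fun hl => hgt (Finset.mem_filter.mpr ⟨hr.1, Or.inr hl⟩))
      (hr.2.resolve_left hr0)
    have hrw : T.InWindow r := ⟨⟨N, hr.1⟩, hr0, hrv ▸ hzav ▸ hza.2.2.1, hrv ▸ hzav ▸ hza.2.2.2⟩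
    let i0 : Fin c := e.symm ⟨x, hx⟩
    refine ⟨Fin.snoc (fun i => f (e i)) r, i0.castSucc, Fin.last c, ?_, ?_, fun _ => ?_⟩
    · intro i
      refine Fin.lastCases ?_ (fun i => ?_) i
      · simpa using hrw
      · simpa using hf _ (e i).2
    · intro i j hij h1 h2 he
      refine Fin.lastCases (fun hij h1 h2 he => ?_) (fun i hij h1 h2 he => ?_) i hij h1 h2 he
      · obtain ⟨j, rfl⟩ := Fin.exists_castSucc_eq.mpr hij.symm
        simp only [Fin.snoc_last, Fin.snoc_castSucc, hrv, hfv _ (e j).2] at he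
        exact h2 ⟨rfl, congrArg Fin.castSucc
          (e.injective (Subtype.ext (by simpa [i0] using he.symm)))⟩
      · induction j using Fin.lastCases with
        | last =>
          simp only [Fin.snoc_last, Fin.snoc_castSucc, hrv, hfv _ (e i).2] at he
          exact h1 ⟨congrArg Fin.castSucc
            (e.injective (Subtype.ext (by simpa [i0] using he))), rfl⟩
        | cast j =>
          simp only [Fin.snoc_castSucc, hfv _ (e i).2, hfv _ (e j).2] at he
          exact hij (congrArg Fin.castSucc (e.injective (Subtype.ext he)))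
    · have hi0 : (e i0 : ℝ) = x := by simp [i0]
      simp only [Fin.snoc_last, Fin.snoc_castSucc, hi0]
      refine ⟨hzav.trans hrv.symm, fun j => ?_⟩
      have hj : ‖((j : C))‖ ≤ 1 := IsUltrametricDist.norm_natCast_le_one C j
      refine le_antisymm ?_ (not_lt.mp fun hl => hε j ?_)
      · have := IsUltrametricDist.norm_add_le_max (r.val / (f x).val) (-(j : C))
        rw [norm_neg, ← sub_eq_add_neg] at this
        exact this.trans (max_le hrn hj)
      · rw [← hrε, (res_eq_iff hrn hj).mpr hl, res_of_le hj, ← map_natCast (IsLocalRing.residue _)]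
        rfl

end Tower

end Vale.Agent.P217.Tors
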