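import Vale.Agent.P217.Tors.Phi

/-!
# P217: exponent intervals of different classes are disjoint modulo `n`, and consecutive exponents
-/

noncomputable section

namespace Vale.Agent.P217.Tors

set_option linter.unusedSectionVars false

variable {C : Type*} [NormedField C] [IsUltrametricDist C]

namespace Tower

variable {L : DiscLaw C} {p h d : ℕ} (T : Tower L p h d)

include T

theorem hi_sub_lo_le {V : ℝ} (hV : 0 < V) (hVr : V < T.rmin) : T.hi V ≤ T.lo V + d := by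
  have h1 := (T.lo_hi_scale hV hVr).2
  have h2 := T.hi_le_lo hV (lt_mul_of_one_lt_left hV (one_lt_pow₀ T.one_lt_p
    (show h + d ≠ 0 by have := T.one_le_h; omega)))
  omega

/-- Two different valuations in one period with tied weights have disjoint exponent classes. -/
theorem disjoint_of_lt {V V' : ℝ} (hV : 0 < V) (hVr : V < T.rmin) (hlt : V < V')
    (hper : V' < (p : ℝ) ^ (h + d) * V) {t t' : ℕ}
    (heq : (p : ℝ) ^ t * T.Phi V = (p : ℝ) ^ t' * T.Phi V') {κ κ' : ℤ}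
    (hκ : (T.lo V : ℤ) ≤ κ) (hκ' : κ ≤ T.hi V) (hμ : (T.lo V' : ℤ) ≤ κ') (hμ' : κ' ≤ T.hi V') :
    ¬ ((h + d : ℕ) : ℤ) ∣ (κ + t) - (κ' + t') := by
  have hΦ := T.Phi_pos hV
  have h1 : T.Phi V < T.Phi V' := T.Phi_strictMono hV hlt
  have h2 : T.Phi V' < (p : ℝ) ^ h * T.Phi V := by
    rw [← T.Phi_scale hV hVr.le]; exact T.Phi_strictMono (hV.trans hlt) hper
  have ht : t' < t := by
    by_contra hle
    have : (p : ℝ) ^ t * T.Phi V < (p : ℝ) ^ t' * T.Phi V' :=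
      mul_lt_mul' (pow_le_pow_right₀ T.one_lt_p.le (not_lt.mp hle)) h1 hΦ.le (pow_pos T.p_pos _)
    exact this.ne heq
  have ht2 : t < t' + h := by
    by_contra hle
    have : (p : ℝ) ^ t' * T.Phi V' < (p : ℝ) ^ t * T.Phi V := by
      refine (mul_lt_mul_of_pos_left h2 (pow_pos T.p_pos t')).trans_le ?_
      rw [← mul_assoc, ← pow_add]
      exact mul_le_mul_of_nonneg_right (pow_le_pow_right₀ T.one_lt_p.le (not_lt.mp hle)) hΦ.le
    exact this.ne heq.symm
  have e1 := T.hi_le_lo hV hlt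
  have e2 := T.hi_le_lo (hV.trans hlt) hper
  have e3 := (T.lo_hi_scale hV hVr).2
  intro hdvd
  have := Int.le_of_dvd (by omega) hdvd
  omega

/-- Disjointness without an ordering assumption. -/
theorem disjoint_of_ne {V V' : ℝ} (hV : 0 < V) (hV' : 0 < V') (hVr : V < T.rmin)
    (hVr' : V' < T.rmin) (hne : V ≠ V') (hper : V' < (p : ℝ) ^ (h + d) * V)
    (hper' : V < (p : ℝ) ^ (h + d) * V') {t t' : ℕ}
    (heq : (p : ℝ) ^ t * T.Phi V = (p : ℝ) ^ t' * T.Phi V') {κ κ' : ℤ}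
    (hκ : (T.lo V : ℤ) ≤ κ) (hκ' : κ ≤ T.hi V) (hμ : (T.lo V' : ℤ) ≤ κ') (hμ' : κ' ≤ T.hi V') :
    ¬ ((h + d : ℕ) : ℤ) ∣ (κ + t) - (κ' + t') := by
  rcases hne.lt_or_gt with hlt | hlt
  · exact T.disjoint_of_lt hV hVr hlt hper heq hκ hκ' hμ hμ'
  · rw [← dvd_neg, neg_sub]
    exact T.disjoint_of_lt hV' hVr' hlt hper' heq.symm hμ hμ' hκ hκ'

theorem hi_antitone {V V' : ℝ} (hV : 0 < V) (hVV : V ≤ V') : T.hi V' ≤ T.hi V := by
  rcases hVV.eq_or_lt with rfl | hlt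
  · exact le_rfl
  · exact (T.hi_le_lo hV hlt).trans (T.lo_le_hi hV)

/-- Two test exponents whose top exponents are consecutive. -/
theorem exists_step {V : ℝ} (hV : 0 < V) (hVr : V < T.rmin) :
    ∃ k : ℕ, k ≤ h + d ∧ T.hi (V / (p : ℝ) ^ k) + 1 = T.hi V + k := by
  classical
  have hn : T.hi (V / (p : ℝ) ^ (h + d)) + 1 ≤ T.hi V + (h + d) := by
    have hpn : (0 : ℝ) < (p : ℝ) ^ (h + d) := pow_pos T.p_pos _
    have h1 := (T.lo_hi_scale (div_pos hV hpn)
      ((div_le_self hV.le (one_le_pow₀ T.one_lt_p.le)).trans_lt hVr)).2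
    rw [mul_div_cancel₀ _ hpn.ne'] at h1
    have := T.one_le_h
    omega
  have hex : ∃ k, T.hi (V / (p : ℝ) ^ k) + 1 ≤ T.hi V + k := ⟨h + d, hn⟩
  refine ⟨Nat.find hex, Nat.find_le hn, le_antisymm (Nat.find_spec hex) ?_⟩
  rcases hk : Nat.find hex with _ | k
  · simp
  · have h1 := Nat.find_min hex (show k < Nat.find hex by omega)
    have h2 : T.hi (V / (p : ℝ) ^ k) ≤ T.hi (V / (p : ℝ) ^ (k + 1)) :=
      T.hi_antitone (div_pos hV (pow_pos T.p_pos _))
        (div_le_div_of_nonneg_left hV.le (pow_pos T.p_pos _)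
          (pow_le_pow_right₀ T.one_lt_p.le (Nat.le_succ k)))
    omega

end Tower

end Vale.Agent.P217.Tors
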