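import Mathlib

/-!
# P217: group laws on the open unit disc of an ultrametric field

`DiscLaw C` is a commutative group law on `{x | ‖x‖ < 1}` which agrees with addition up to terms
of size `‖x‖ * ‖y‖`. This is what the points of an integral formal group law give.
-/

noncomputable section

namespace Vale.Agent.P217.Tors

set_option linter.unusedSectionVars false

variable (C : Type*) [NormedField C] [IsUltrametricDist C]

/-- A commutative group law on the open unit disc, close to addition. -/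
structure DiscLaw where
  /-- the law -/
  add : C → C → C
  /-- the inverse -/
  neg : C → C
  add_close : ∀ x y, ‖x‖ < 1 → ‖y‖ < 1 → ‖add x y - (x + y)‖ ≤ ‖x‖ * ‖y‖
  neg_mem : ∀ x, ‖x‖ < 1 → ‖neg x‖ < 1
  assoc : ∀ x y z, ‖x‖ < 1 → ‖y‖ < 1 → ‖z‖ < 1 → add (add x y) z = add x (add y z)
  comm : ∀ x y, ‖x‖ < 1 → ‖y‖ < 1 → add x y = add y x
  zero_add : ∀ x, ‖x‖ < 1 → add 0 x = x
  neg_add : ∀ x, ‖x‖ < 1 → add (neg x) x = 0

variable {C}

namespace DiscLaw

variable (L : DiscLaw C)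

theorem norm_add_le {x y : C} (hx : ‖x‖ < 1) (hy : ‖y‖ < 1) :
    ‖L.add x y‖ ≤ max ‖x‖ ‖y‖ := by
  have h1 : ‖L.add x y - (x + y)‖ ≤ max ‖x‖ ‖y‖ := by
    calc ‖L.add x y - (x + y)‖ ≤ ‖x‖ * ‖y‖ := L.add_close x y hx hy
      _ ≤ ‖x‖ * 1 := by gcongr
      _ ≤ max ‖x‖ ‖y‖ := by simp
  have h2 : ‖x + y‖ ≤ max ‖x‖ ‖y‖ := IsUltrametricDist.norm_add_le_max x y
  calc ‖L.add x y‖ = ‖(L.add x y - (x + y)) + (x + y)‖ := by rw [sub_add_cancel]
    _ ≤ max ‖L.add x y - (x + y)‖ ‖x + y‖ := IsUltrametricDist.norm_add_le_max _ _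
    _ ≤ max ‖x‖ ‖y‖ := max_le h1 h2

theorem add_lt {x y : C} (hx : ‖x‖ < 1) (hy : ‖y‖ < 1) : ‖L.add x y‖ < 1 :=
  (L.norm_add_le hx hy).trans_lt (max_lt hx hy)

/-- The points of the open unit disc with the group law `L`. -/
def Pt (_L : DiscLaw C) : Type _ := {x : C // ‖x‖ < 1}

/-- The underlying element of `C`. -/
def Pt.val {L : DiscLaw C} (x : L.Pt) : C := Subtype.val x

theorem Pt.norm_lt {L : DiscLaw C} (x : L.Pt) : ‖x.val‖ < 1 := x.2

@[ext]
theorem Pt.ext {L : DiscLaw C} {x y : L.Pt} (h : x.val = y.val) : x = y := Subtype.ext h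

instance : Zero L.Pt := ⟨⟨0, by simp⟩⟩
instance : Add L.Pt := ⟨fun x y => ⟨L.add x.val y.val, L.add_lt x.norm_lt y.norm_lt⟩⟩
instance : Neg L.Pt := ⟨fun x => ⟨L.neg x.val, L.neg_mem _ x.norm_lt⟩⟩

@[simp] theorem val_zero : (0 : L.Pt).val = 0 := rfl
theorem val_add (x y : L.Pt) : (x + y).val = L.add x.val y.val := rfl

instance : AddCommGroup L.Pt where
  add_assoc x y z := Pt.ext (L.assoc _ _ _ x.norm_lt y.norm_lt z.norm_lt)
  zero_add x := Pt.ext (L.zero_add _ x.norm_lt)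
  add_zero x := Pt.ext <| by
    rw [val_add, L.comm _ _ x.norm_lt (0 : L.Pt).norm_lt]
    exact L.zero_add _ x.norm_lt
  add_comm x y := Pt.ext (L.comm _ _ x.norm_lt y.norm_lt)
  neg_add_cancel x := Pt.ext (L.neg_add _ x.norm_lt)
  nsmul := nsmulRec
  zsmul := zsmulRec

theorem norm_val_add_le (x y : L.Pt) : ‖(x + y).val‖ ≤ max ‖x.val‖ ‖y.val‖ :=
  L.norm_add_le x.norm_lt y.norm_lt

/-- The formal difference has the size of the ordinary difference. -/
theorem norm_val_sub (x y : L.Pt) : ‖(x - y).val‖ = ‖x.val - y.val‖ := by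
  set d := x - y with hd
  have hx : x = d + y := by rw [hd, sub_add_cancel]
  have h1 : ‖(d + y).val - (d.val + y.val)‖ ≤ ‖d.val‖ * ‖y.val‖ :=
    L.add_close _ _ d.norm_lt y.norm_lt
  rw [← hx] at h1
  rcases eq_or_ne d.val 0 with h0 | h0
  · rw [h0] at h1 ⊢
    simp only [norm_zero, zero_mul, _root_.zero_add, norm_le_zero_iff] at h1
    rw [h1]
  · have h2 : ‖x.val - (d.val + y.val)‖ < ‖d.val‖ := by
      refine h1.trans_lt ?_
      exact mul_lt_of_lt_one_right (norm_pos_iff.mpr h0) y.norm_lt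
    have : x.val - y.val = (x.val - (d.val + y.val)) + d.val := by ring
    rw [this, IsUltrametricDist.norm_add_eq_max_of_norm_ne_norm h2.ne, max_eq_right h2.le]

theorem norm_val_neg (x : L.Pt) : ‖(-x).val‖ = ‖x.val‖ := by
  simpa using L.norm_val_sub 0 x

theorem norm_val_sub_le (x y : L.Pt) : ‖(x - y).val‖ ≤ max ‖x.val‖ ‖y.val‖ := by
  rw [sub_eq_add_neg]
  simpa only [L.norm_val_neg] using L.norm_val_add_le x (-y)

theorem norm_val_nsmul_le (x : L.Pt) (k : ℕ) : ‖(k • x).val‖ ≤ ‖x.val‖ := by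
  induction k with
  | zero => simp
  | succ k ih =>
    rw [succ_nsmul]
    exact (L.norm_val_add_le _ _).trans (max_le ih le_rfl)

theorem norm_val_sum_le {ι : Type*} (s : Finset ι) (f : ι → L.Pt) {B : ℝ} (hB : 0 ≤ B)
    (h : ∀ i ∈ s, ‖(f i).val‖ ≤ B) : ‖(∑ i ∈ s, f i).val‖ ≤ B := by
  classical
  induction s using Finset.induction_on with
  | empty => simpa using hB
  | insert a s ha ih =>
    rw [Finset.sum_insert ha]
    exact (L.norm_val_add_le _ _).trans
      (max_le (h a (Finset.mem_insert_self a s)) (ih fun i hi => h i (Finset.mem_insert_of_mem hi)))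

end DiscLaw

end Vale.Agent.P217.Tors
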