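import Vale.Agent.P217.Tors.Tower

/-!
# P217: the function `Phi` and the counting exponents `lo`, `hi` of a torsion tower
-/

noncomputable section

namespace Vale.Agent.P217.Tors

set_option linter.unusedSectionVars false

variable {C : Type*} [NormedField C] [IsUltrametricDist C]

open DiscLaw.Pt
open scoped Classical

namespace Tower

variable {L : DiscLaw C} {p h d : ℕ} (T : Tower L p h d)

include T

theorem one_lt_phh : 1 < (p : ℝ) ^ h := T.one_lt_ph

theorem exists_lt_mul_pow {V : ℝ} (hV : 0 < V) : ∃ N, T.rmax < V * (p : ℝ) ^ (h * N) := by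
  obtain ⟨N, hN⟩ := pow_unbounded_of_one_lt (T.rmax / V) T.one_lt_ph
  exact ⟨N, by rw [pow_mul]; rwa [div_lt_iff₀' hV] at hN⟩

/-- A level above which all torsion points are deep. -/
def J0 : ℕ := Nat.find (T.exists_lt_mul_pow T.rmin_pos)

theorem v_lt_rmin {N : ℕ} {r : L.Pt} (hr : r ∈ T.roots N) (h0 : r ∉ T.roots T.J0) :
    r.v < T.rmin := by
  have h1 := T.v_mul_pow_le _ hr h0
  have h2 := Nat.find_spec (T.exists_lt_mul_pow T.rmin_pos)
  exact lt_of_mul_lt_mul_right (h1.trans_lt h2) (pow_nonneg T.p_pos.le _)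

/-- `N` is a stable level for `V`. -/
def Stable (N : ℕ) (V : ℝ) : Prop := T.J0 ≤ N ∧ T.rmax < V * (p : ℝ) ^ (h * N)

theorem stable_mono {N M : ℕ} {V V' : ℝ} (hV : 0 < V) (hs : T.Stable N V)
    (hNM : N ≤ M) (hVV : V ≤ V') : T.Stable M V' := by
  refine ⟨hs.1.trans hNM, hs.2.trans_le ?_⟩
  exact mul_le_mul hVV (pow_le_pow_right₀ T.one_lt_p.le (Nat.mul_le_mul_left h hNM))
    (pow_nonneg T.p_pos.le _) (hV.le.trans hVV)

theorem exists_stable {V : ℝ} (hV : 0 < V) : ∃ N, T.Stable N V := by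
  obtain ⟨N, hN⟩ := T.exists_lt_mul_pow hV
  refine ⟨max N T.J0, le_max_right _ _, hN.trans_le ?_⟩
  exact mul_le_mul_of_nonneg_left
    (pow_le_pow_right₀ T.one_lt_p.le (Nat.mul_le_mul_left h (le_max_left _ _))) hV.le

/-- The first stable level. -/
def N0 (V : ℝ) : ℕ := if hV : 0 < V then Nat.find (T.exists_stable hV) else 0

theorem stable_N0 {V : ℝ} (hV : 0 < V) : T.Stable (T.N0 V) V := by
  rw [N0, dif_pos hV]; exact Nat.find_spec (T.exists_stable hV)

theorem N0_le {N : ℕ} {V : ℝ} (hV : 0 < V) (hs : T.Stable N V) : T.N0 V ≤ N := by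
  rw [N0, dif_pos hV]; exact Nat.find_min' _ hs

theorem v_lt_of_stable {N M : ℕ} {V : ℝ} (hs : T.Stable N V) {r : L.Pt} (hr : r ∈ T.roots M)
    (hn : r ∉ T.roots N) : r.v < V :=
  lt_of_mul_lt_mul_right ((T.v_mul_pow_le _ hr hn).trans_lt hs.2) (pow_nonneg T.p_pos.le _)

/-- The total valuation of the torsion of exact level `N + 1`. -/
def tailT (N : ℕ) : ℝ := ∑ r ∈ T.roots (N + 1) with r ∉ T.roots N, r.v

theorem tailT_succ {N : ℕ} (hN : T.J0 ≤ N + 1) :
    (p : ℝ) ^ h * T.tailT (N + 1) = T.tailT N := by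
  have h1 := T.sum_comp_smul (N + 1) fun z => if z ∉ T.roots N then z.v else 0
  have h2 : ∀ r ∈ T.roots (N + 1 + 1), (if p • r ∉ T.roots N then (p • r).v else 0)
      = if r ∉ T.roots (N + 1) then (p : ℝ) ^ (h + d) * r.v else 0 := by
    intro r hr
    simp only [← T.mem_roots_succ]
    by_cases hm : r ∈ T.roots (N + 1)
    · simp [hm]
    · rw [if_pos hm, if_pos hm]
      have hne : r ≠ 0 := fun e => hm (e ▸ T.zero_mem_roots _)
      exact (T.v_smul_deep hne (T.v_lt_rmin hr fun hj => hm (T.roots_mono hN hj))).2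
  rw [Finset.sum_congr rfl h2, ← Finset.sum_filter, ← Finset.sum_filter, ← Finset.mul_sum,
    nsmul_eq_mul, Nat.cast_pow, pow_add] at h1
  apply mul_left_cancel₀ (pow_ne_zero d T.p_pos.ne')
  rw [← mul_assoc, mul_comm ((p : ℝ) ^ d) ((p : ℝ) ^ h)]
  exact h1

theorem tailT_nonneg (N : ℕ) : 0 ≤ T.tailT N :=
  Finset.sum_nonneg fun r hr => by
    rw [Finset.mem_filter] at hr
    exact (v_pos fun e : r = 0 => hr.2 (e ▸ T.zero_mem_roots N)).le

/-- The constant of the geometric tail. -/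
def kappa : ℝ := (p : ℝ) ^ (h * T.J0) * T.tailT T.J0 * (p : ℝ) ^ h / ((p : ℝ) ^ h - 1)

theorem kappa_nonneg : 0 ≤ T.kappa := by
  have := T.one_lt_ph
  have := T.tailT_nonneg T.J0
  have := T.p_pos
  unfold kappa
  refine div_nonneg ?_ (by linarith)
  positivity

theorem tail_eq {N : ℕ} (hN : T.J0 ≤ N) :
    (p : ℝ) ^ (h * (N + 1)) * T.tailT N = ((p : ℝ) ^ h - 1) * T.kappa := by
  have hne : (p : ℝ) ^ h - 1 ≠ 0 := (sub_pos.mpr T.one_lt_ph).ne'
  induction N, hN using Nat.le_induction with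
  | base => rw [kappa, mul_div_cancel₀ _ hne, mul_add, mul_one, pow_add]; ring
  | succ N hN ih =>
    rw [← ih, ← T.tailT_succ (N := N) (by omega), show h * (N + 1 + 1) = h * (N + 1) + h by ring,
      pow_add]
    ring

theorem phiN_succ {N : ℕ} {V : ℝ} (hs : T.Stable N V) :
    T.phiN (N + 1) V = (p : ℝ) ^ h * T.phiN N V + ((p : ℝ) ^ h - 1) * T.kappa := by
  have h1 : ∑ r ∈ T.roots (N + 1) with r ∉ T.roots N, mn V r = T.tailT N := by
    refine Finset.sum_congr rfl fun r hr => ?_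
    rw [Finset.mem_filter] at hr
    rw [mn_of_ne (fun e : r = 0 => hr.2 (e ▸ T.zero_mem_roots N)),
      min_eq_right (T.v_lt_of_stable hs hr.1 hr.2).le]
  have h2 : ∑ r ∈ T.roots (N + 1) with ¬ r ∉ T.roots N, mn V r = ∑ r ∈ T.roots N, mn V r := by
    refine Finset.sum_congr (Finset.ext fun r => ?_) fun _ _ => rfl
    simp only [Finset.mem_filter, not_not]
    exact ⟨fun hr => hr.2, fun hr => ⟨T.roots_mono (Nat.le_succ N) hr, hr⟩⟩
  rw [phiN, phiN, ← Finset.sum_filter_add_sum_filter_not (T.roots (N + 1))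
    (fun r => r ∉ T.roots N), h1, h2, ← T.tail_eq hs.1, mul_add, show h * (N + 1) = h * N + h by ring, pow_add]
  ring

/-- `Phi V = lim p ^ (-h N) * φ_N V`. -/
def Phi (V : ℝ) : ℝ := (T.phiN (T.N0 V) V + T.kappa) / (p : ℝ) ^ (h * T.N0 V)

theorem phiN_eq {N : ℕ} {V : ℝ} (hV : 0 < V) (hs : T.Stable N V) :
    T.phiN N V = (p : ℝ) ^ (h * N) * T.Phi V - T.kappa := by
  induction N, T.N0_le hV hs using Nat.le_induction with
  | base => rw [Phi, mul_div_cancel₀ _ (pow_ne_zero _ T.p_pos.ne')]; ring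
  | succ N hN ih =>
    have hs' := T.stable_mono hV (T.stable_N0 hV) hN le_rfl
    rw [T.phiN_succ hs', ih hs', mul_add h N, mul_one, pow_add]; ring

theorem Phi_pos {V : ℝ} (hV : 0 < V) : 0 < T.Phi V := by
  have h1 := T.mul_le_phiN (T.N0 V) hV
  have h2 : 0 < (p : ℝ) ^ (h * T.N0 V) * V := mul_pos (pow_pos T.p_pos _) hV
  have := T.kappa_nonneg
  exact div_pos (by linarith) (pow_pos T.p_pos _)

theorem Phi_strictMono {V V' : ℝ} (hV : 0 < V) (hVV : V < V') : T.Phi V < T.Phi V' := by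
  obtain ⟨N, hN⟩ := T.exists_stable hV
  have h1 := T.phiN_eq hV hN
  have h2 := T.phiN_eq (hV.trans hVV) (T.stable_mono hV hN le_rfl hVV.le)
  have h3 : T.phiN N V < T.phiN N V' := by
    refine mul_lt_mul_of_pos_left (Finset.sum_lt_sum (fun r _ => mn_mono hVV.le r)
      ⟨0, T.zero_mem_roots N, ?_⟩) (pow_pos T.p_pos _)
    rw [mn_zero, mn_zero]; exact hVV
  rw [h1, h2] at h3
  exact lt_of_mul_lt_mul_left (by linarith) (pow_nonneg T.p_pos.le _)

theorem Phi_mono {V V' : ℝ} (hV : 0 < V) (hVV : V ≤ V') : T.Phi V ≤ T.Phi V' := by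
  rcases hVV.eq_or_lt with rfl | hlt
  · exact le_rfl
  · exact (T.Phi_strictMono hV hlt).le

theorem Phi_scale {V : ℝ} (hV : 0 < V) (hVr : V ≤ T.rmin) :
    T.Phi ((p : ℝ) ^ (h + d) * V) = (p : ℝ) ^ h * T.Phi V := by
  obtain ⟨N, hN⟩ := T.exists_stable hV
  have hle : V ≤ (p : ℝ) ^ (h + d) * V := le_mul_of_one_le_left hV.le (one_le_pow₀ T.one_lt_p.le)
  have h1 := T.phiN_eq (hV.trans_le hle) (T.stable_mono hV hN le_rfl hle)
  have h2 := T.phiN_eq hV (T.stable_mono hV hN (Nat.le_succ N) le_rfl)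
  rw [T.phiN_scale N hVr] at h1
  rw [h2, show h * N.succ = h * N + h from Nat.mul_succ h N, pow_add] at h1
  apply mul_left_cancel₀ (pow_ne_zero (h * N) T.p_pos.ne')
  linarith

/-! ### the exponents `lo` and `hi` -/

/-- The torsion of valuation more than `V`. -/
def gtF (N : ℕ) (V : ℝ) : Finset L.Pt := (T.roots N).filter fun r => r = 0 ∨ V < r.v

/-- The torsion of valuation at least `V`. -/
def geF (N : ℕ) (V : ℝ) : Finset L.Pt := (T.roots N).filter fun r => r = 0 ∨ V ≤ r.v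

theorem gtF_subset_geF (N : ℕ) (V : ℝ) : T.gtF N V ⊆ T.geF N V := by
  intro r; simp only [gtF, geF, Finset.mem_filter]
  exact fun ⟨a, b⟩ => ⟨a, b.imp_right le_of_lt⟩

theorem v_sub_ge {r s : L.Pt} (hrs : r ≠ s) {B : ℝ} (hr : r = 0 ∨ B ≤ r.v) (hs : s = 0 ∨ B ≤ s.v) :
    B ≤ (r - s).v := by
  have hne := val_ne_zero (sub_ne_zero.mpr hrs)
  rcases le_max_iff.mp (L.norm_val_sub_le r s) with h1 | h1
  · rcases hr with rfl | hr
    · rw [DiscLaw.val_zero, norm_zero] at h1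
      exact (hne (norm_le_zero_iff.mp h1)).elim
    · have hr0 : r.val ≠ 0 := fun e => hne (norm_le_zero_iff.mp (by rwa [e, norm_zero] at h1))
      exact hr.trans ((vv_le_iff hr0 hne).mpr h1)
  · rcases hs with rfl | hs
    · rw [DiscLaw.val_zero, norm_zero] at h1
      exact (hne (norm_le_zero_iff.mp h1)).elim
    · have hs0 : s.val ≠ 0 := fun e => hne (norm_le_zero_iff.mp (by rwa [e, norm_zero] at h1))
      exact hs.trans ((vv_le_iff hs0 hne).mpr h1)

theorem geF_sub_mem {N : ℕ} {V : ℝ} {r s : L.Pt} (hr : r ∈ T.geF N V) (hs : s ∈ T.geF N V) :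
    r - s ∈ T.geF N V := by
  rw [geF, Finset.mem_filter] at hr hs ⊢
  refine ⟨T.sub_mem_roots hr.1 hs.1, ?_⟩
  rcases eq_or_ne r s with rfl | hrs
  · left; exact sub_self r
  · right; exact T.v_sub_ge hrs hr.2 hs.2

theorem gtF_sub_mem {N : ℕ} {V : ℝ} {r s : L.Pt} (hr : r ∈ T.gtF N V) (hs : s ∈ T.gtF N V) :
    r - s ∈ T.gtF N V := by
  rw [gtF, Finset.mem_filter] at hr hs ⊢
  refine ⟨T.sub_mem_roots hr.1 hs.1, ?_⟩
  rcases eq_or_ne r s with rfl | hrs
  · left; exact sub_self r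
  right
  rcases eq_or_ne r 0 with r0 | r0
  · rcases hs.2 with s0 | hs'
    · exact (hrs (r0.trans s0.symm)).elim
    · exact hs'.trans_le (T.v_sub_ge hrs (Or.inl r0) (Or.inr le_rfl))
  · have hr' : V < r.v := hr.2.resolve_left r0
    rcases eq_or_ne s 0 with s0 | s0
    · exact hr'.trans_le (T.v_sub_ge hrs (Or.inr le_rfl) (Or.inl s0))
    · exact (lt_min hr' (hs.2.resolve_left s0)).trans_le
        (T.v_sub_ge hrs (Or.inr (min_le_left _ _)) (Or.inr (min_le_right _ _)))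

theorem card_eq_pow {N : ℕ} {s : Finset L.Pt} (hs : s ⊆ T.roots N) (h0 : (0 : L.Pt) ∈ s)
    (hsub : ∀ x ∈ s, ∀ y ∈ s, x - y ∈ s) : s.card = p ^ Nat.log p s.card := by
  let H : AddSubgroup L.Pt := AddSubgroup.ofSub (s : Set L.Pt) ⟨0, h0⟩ fun x hx y hy => by
    simpa [sub_eq_add_neg] using hsub x hx y hy
  let R : AddSubgroup L.Pt := AddSubgroup.ofSub (T.roots N : Set L.Pt) ⟨0, T.zero_mem_roots N⟩
    fun x hx y hy => by simpa [sub_eq_add_neg] using T.sub_mem_roots hx hy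
  have hdvd : Nat.card H ∣ Nat.card R := AddSubgroup.card_dvd_of_le fun x hx => hs hx
  have hH : Nat.card H = s.card := by
    show Nat.card (s : Set L.Pt) = _
    simp
  have hR : Nat.card R = p ^ (d * N) := by
    show Nat.card (T.roots N : Set L.Pt) = _
    simp [T.card_roots]
  rw [hH, hR] at hdvd
  obtain ⟨k, -, hk⟩ := (Nat.dvd_prime_pow T.prime).mp hdvd
  rw [hk, Nat.log_pow T.prime.one_lt]

theorem geF_eq {N : ℕ} {V : ℝ} (hs : T.Stable N V) {M : ℕ} (hNM : N ≤ M) :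
    T.geF M V = T.geF N V := by
  ext r; simp only [geF, Finset.mem_filter]
  refine ⟨fun ⟨hr, h1⟩ => ⟨?_, h1⟩, fun ⟨hr, h1⟩ => ⟨T.roots_mono hNM hr, h1⟩⟩
  rcases h1 with rfl | h1
  · exact T.zero_mem_roots N
  · by_contra hn; exact not_lt.mpr h1 (T.v_lt_of_stable hs hr hn)

theorem gtF_eq {N : ℕ} {V : ℝ} (hs : T.Stable N V) {M : ℕ} (hNM : N ≤ M) :
    T.gtF M V = T.gtF N V := by
  ext r; simp only [gtF, Finset.mem_filter]
  refine ⟨fun ⟨hr, h1⟩ => ⟨?_, h1⟩, fun ⟨hr, h1⟩ => ⟨T.roots_mono hNM hr, h1⟩⟩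
  rcases h1 with rfl | h1
  · exact T.zero_mem_roots N
  · by_contra hn; exact lt_asymm h1 (T.v_lt_of_stable hs hr hn)

/-- `log_p` of the number of torsion points of valuation more than `V`. -/
def lo (V : ℝ) : ℕ := Nat.log p (T.gtF (T.N0 V) V).card

/-- `log_p` of the number of torsion points of valuation at least `V`. -/
def hi (V : ℝ) : ℕ := Nat.log p (T.geF (T.N0 V) V).card

theorem card_gtF {N : ℕ} {V : ℝ} (hV : 0 < V) (hs : T.Stable N V) :
    (T.gtF N V).card = p ^ T.lo V := by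
  rw [T.gtF_eq (T.stable_N0 hV) (T.N0_le hV hs), lo]
  exact T.card_eq_pow (Finset.filter_subset _ _) (by simp [gtF, T.zero_mem_roots])
    fun x hx y hy => T.gtF_sub_mem hx hy

theorem card_geF {N : ℕ} {V : ℝ} (hV : 0 < V) (hs : T.Stable N V) :
    (T.geF N V).card = p ^ T.hi V := by
  rw [T.geF_eq (T.stable_N0 hV) (T.N0_le hV hs), hi]
  exact T.card_eq_pow (Finset.filter_subset _ _) (by simp [geF, T.zero_mem_roots])
    fun x hx y hy => T.geF_sub_mem hx hy

theorem lo_le_hi {V : ℝ} (hV : 0 < V) : T.lo V ≤ T.hi V := by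
  obtain ⟨N, hN⟩ := T.exists_stable hV
  have := Finset.card_le_card (T.gtF_subset_geF N V)
  rw [T.card_gtF hV hN, T.card_geF hV hN] at this
  exact (Nat.pow_le_pow_iff_right T.prime.one_lt).mp this

theorem hi_le_lo {V V' : ℝ} (hV : 0 < V) (hVV : V < V') : T.hi V' ≤ T.lo V := by
  obtain ⟨N, hN⟩ := T.exists_stable hV
  have hsub : T.geF N V' ⊆ T.gtF N V := by
    intro r; simp only [geF, gtF, Finset.mem_filter]
    exact fun ⟨a, b⟩ => ⟨a, b.imp_right hVV.trans_le⟩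
  have := Finset.card_le_card hsub
  rw [T.card_gtF hV hN, T.card_geF (hV.trans hVV) (T.stable_mono hV hN le_rfl hVV.le)] at this
  exact (Nat.pow_le_pow_iff_right T.prime.one_lt).mp this

theorem deep_iff {V : ℝ} (hVr : V < T.rmin) (r : L.Pt) :
    ((r = 0 ∨ V < r.v) ↔ (p • r = 0 ∨ (p : ℝ) ^ (h + d) * V < (p • r).v)) ∧
      ((r = 0 ∨ V ≤ r.v) ↔ (p • r = 0 ∨ (p : ℝ) ^ (h + d) * V ≤ (p • r).v)) := by
  have hq : (0 : ℝ) < (p : ℝ) ^ (h + d) := pow_pos T.p_pos _
  rcases eq_or_ne r 0 with rfl | h0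
  · simp
  rcases lt_or_ge r.v T.rmin with hlt | hge
  · obtain ⟨hne, he⟩ := T.v_smul_deep h0 hlt
    simp [h0, hne, he, mul_lt_mul_iff_right₀ hq, mul_le_mul_iff_right₀ hq]
  · have hp : p • r = 0 ∨ (p : ℝ) ^ (h + d) * V < (p • r).v := by
      by_cases hp : p • r = 0
      · exact Or.inl hp
      refine Or.inr ?_
      have hyr : r ∉ T.roots 1 := fun hm => hp (by simpa using (T.mem_roots 1 r).mp hm)
      have h1 := (T.phiN_mono 1 hge).trans (T.phiN_le_v_smul 1 hyr)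
      rw [T.phiN_one_deep le_rfl, pow_one] at h1
      exact lt_of_lt_of_le (mul_lt_mul_of_pos_left hVr hq) h1
    have h2 : V < r.v := hVr.trans_le hge
    exact ⟨iff_of_true (Or.inr h2) hp, iff_of_true (Or.inr h2.le) (hp.imp_right le_of_lt)⟩

theorem card_filter_scale (N : ℕ) (P Q : L.Pt → Prop) (hPQ : ∀ r, P r ↔ Q (p • r)) :
    ((T.roots (N + 1)).filter P).card = p ^ d * ((T.roots N).filter Q).card := by
  have h1 := T.sum_comp_smul N fun z => if Q z then 1 else 0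
  simp only [smul_eq_mul, ← hPQ, ← Finset.sum_filter] at h1
  simpa using h1

theorem lo_hi_scale {V : ℝ} (hV : 0 < V) (hVr : V < T.rmin) :
    T.lo V = T.lo ((p : ℝ) ^ (h + d) * V) + d ∧ T.hi V = T.hi ((p : ℝ) ^ (h + d) * V) + d := by
  obtain ⟨N, hN⟩ := T.exists_stable hV
  have hle : V ≤ (p : ℝ) ^ (h + d) * V := le_mul_of_one_le_left hV.le (one_le_pow₀ T.one_lt_p.le)
  constructor
  · have h1 := T.card_filter_scale N (fun r => r = 0 ∨ V < r.v)
      (fun z => z = 0 ∨ (p : ℝ) ^ (h + d) * V < z.v) fun r => (T.deep_iff hVr r).1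
    replace h1 : (T.gtF (N + 1) V).card = p ^ d * (T.gtF N ((p : ℝ) ^ (h + d) * V)).card := by
      unfold gtF; convert h1
    rw [T.card_gtF hV (T.stable_mono hV hN (Nat.le_succ N) le_rfl),
      T.card_gtF (hV.trans_le hle) (T.stable_mono hV hN le_rfl hle), ← pow_add] at h1
    rw [Nat.pow_right_injective T.prime.two_le h1, add_comm]
  · have h1 := T.card_filter_scale N (fun r => r = 0 ∨ V ≤ r.v)
      (fun z => z = 0 ∨ (p : ℝ) ^ (h + d) * V ≤ z.v) fun r => (T.deep_iff hVr r).2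
    replace h1 : (T.geF (N + 1) V).card = p ^ d * (T.geF N ((p : ℝ) ^ (h + d) * V)).card := by
      unfold geF; convert h1
    rw [T.card_geF hV (T.stable_mono hV hN (Nat.le_succ N) le_rfl),
      T.card_geF (hV.trans_le hle) (T.stable_mono hV hN le_rfl hle), ← pow_add] at h1
    rw [Nat.pow_right_injective T.prime.two_le h1, add_comm]

end Tower

end Vale.Agent.P217.Tors
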