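import Vale.Agent.P217.Tors.Val

/-!
# P217: the torsion tower of a disc law of height `n = h + d` with étale height `d`

The data are the finite sets of `p ^ N`-torsion points and the product formula for `p ^ N • y`.
-/

noncomputable section

namespace Vale.Agent.P217.Tors

set_option linter.unusedSectionVars false

variable {C : Type*} [NormedField C] [IsUltrametricDist C]

open DiscLaw.Pt

/-- The `p`-power torsion of a disc law, with the product formula for multiplication by `p ^ N`. -/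
structure Tower (L : DiscLaw C) (p h d : ℕ) where
  prime : p.Prime
  one_le_h : 1 ≤ h
  one_le_d : 1 ≤ d
  /-- the `p ^ N`-torsion -/
  roots : ℕ → Finset L.Pt
  mem_roots : ∀ N r, r ∈ roots N ↔ p ^ N • r = 0
  card_roots : ∀ N, (roots N).card = p ^ (d * N)
  /-- the unit factor -/
  unit : ℕ → L.Pt → C
  unit_close : ∀ N y, ‖unit N y - 1‖ < 1
  smul_eq : ∀ N y, (p ^ N • y).val = unit N y * ∏ r ∈ roots N, (y.val - r.val) ^ p ^ (h * N)

namespace Tower

variable {L : DiscLaw C} {p h d : ℕ} (T : Tower L p h d)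

include T

theorem p_pos : (0 : ℝ) < p := by exact_mod_cast T.prime.pos

theorem one_lt_p : (1 : ℝ) < p := by exact_mod_cast T.prime.one_lt

theorem one_lt_ph : (1 : ℝ) < (p : ℝ) ^ h :=
  one_lt_pow₀ T.one_lt_p (Nat.one_le_iff_ne_zero.mp T.one_le_h)

theorem norm_unit (N : ℕ) (y : L.Pt) : ‖T.unit N y‖ = 1 := by
  have h1 := T.unit_close N y
  have : T.unit N y = (T.unit N y - 1) + 1 := by ring
  rw [this, IsUltrametricDist.norm_add_eq_max_of_norm_ne_norm (by rw [norm_one]; exact h1.ne),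
    norm_one, max_eq_right h1.le]

theorem unit_ne_zero (N : ℕ) (y : L.Pt) : T.unit N y ≠ 0 := by
  intro h0; have := T.norm_unit N y; simp [h0] at this

theorem zero_mem_roots (N : ℕ) : (0 : L.Pt) ∈ T.roots N := (T.mem_roots N 0).mpr (smul_zero _)

theorem roots_zero : T.roots 0 = {0} := by
  ext r; simp [T.mem_roots]

theorem roots_mono {N M : ℕ} (hNM : N ≤ M) : T.roots N ⊆ T.roots M := by
  intro r hr
  rw [T.mem_roots] at hr ⊢
  obtain ⟨k, rfl⟩ := Nat.exists_eq_add_of_le hNM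
  rw [pow_add, mul_comm, mul_smul, hr, smul_zero]

theorem sub_mem_roots {N : ℕ} {r s : L.Pt} (hr : r ∈ T.roots N) (hs : s ∈ T.roots N) :
    r - s ∈ T.roots N := by
  rw [T.mem_roots] at hr hs ⊢; rw [nsmul_sub, hr, hs, sub_zero]

theorem smul_mem_roots {N : ℕ} {r : L.Pt} (hr : r ∈ T.roots (N + 1)) : p • r ∈ T.roots N := by
  rw [T.mem_roots] at hr ⊢; rwa [← mul_smul, ← pow_succ]

theorem mem_roots_succ {N : ℕ} {r : L.Pt} : r ∈ T.roots (N + 1) ↔ p • r ∈ T.roots N := by
  rw [T.mem_roots, T.mem_roots, pow_succ, mul_smul]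

/-- The valuation of `p ^ N • y` off the torsion. -/
theorem v_smul (N : ℕ) {y : L.Pt} (hy : y ∉ T.roots N) :
    (p ^ N • y).v = (p : ℝ) ^ (h * N) * ∑ r ∈ T.roots N, vv (y.val - r.val) := by
  have hne : ∀ r ∈ T.roots N, y.val - r.val ≠ 0 := fun r hr e =>
    hy (by rw [DiscLaw.Pt.ext (sub_eq_zero.mp e)]; exact hr)
  rw [v, T.smul_eq, vv_mul (T.unit_ne_zero N y)
    (Finset.prod_ne_zero_iff.mpr fun r hr => pow_ne_zero _ (hne r hr)),
    vv_eq_zero_of_norm (T.norm_unit N y), vv_prod _ _ (fun r hr => pow_ne_zero _ (hne r hr)),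
    Finset.mul_sum, zero_add]
  exact Finset.sum_congr rfl fun r _ => by rw [vv_pow]; push_cast; ring

/-- The valuation of `p ^ N • y` in terms of `v y`, if there is no cancellation. -/
def phiN (N : ℕ) (V : ℝ) : ℝ := (p : ℝ) ^ (h * N) * ∑ r ∈ T.roots N, mn V r

theorem phiN_le_v_smul (N : ℕ) {y : L.Pt} (hy : y ∉ T.roots N) :
    T.phiN N y.v ≤ (p ^ N • y).v := by
  have hy0 : y ≠ 0 := fun e => hy (e ▸ T.zero_mem_roots N)
  rw [T.v_smul N hy, phiN]
  exact mul_le_mul_of_nonneg_left (Finset.sum_le_sum fun r hr =>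
    mn_le_v_sub hy0 fun e => hy (e ▸ hr)) (pow_nonneg T.p_pos.le _)

theorem v_smul_eq_phiN (N : ℕ) {y : L.Pt} (hy : y ∉ T.roots N)
    (hgen : ∀ r ∈ T.roots N, vv (y.val - r.val) ≤ y.v) :
    (p ^ N • y).v = T.phiN N y.v := by
  have hy0 : y ≠ 0 := fun e => hy (e ▸ T.zero_mem_roots N)
  rw [T.v_smul N hy, phiN]
  congr 1
  exact Finset.sum_congr rfl fun r hr => v_sub_eq_mn hy0 (fun e => hy (e ▸ hr)) (hgen r hr)

theorem phiN_mono (N : ℕ) {V V' : ℝ} (hV : V ≤ V') : T.phiN N V ≤ T.phiN N V' :=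
  mul_le_mul_of_nonneg_left (Finset.sum_le_sum fun r _ => mn_mono hV r) (pow_nonneg T.p_pos.le _)

theorem mul_le_phiN (N : ℕ) {V : ℝ} (hV : 0 < V) : (p : ℝ) ^ (h * N) * V ≤ T.phiN N V := by
  refine mul_le_mul_of_nonneg_left ?_ (pow_nonneg T.p_pos.le _)
  calc V = mn V (0 : L.Pt) := (mn_zero V).symm
    _ ≤ ∑ r ∈ T.roots N, mn V r :=
      Finset.single_le_sum (fun r _ => (mn_pos hV r).le) (T.zero_mem_roots N)

/-- The nonzero `p`-torsion. -/
def nz : Finset L.Pt := open Classical in (T.roots 1).erase 0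

theorem nz_nonempty : T.nz.Nonempty := by
  classical
  rw [← Finset.card_pos, nz, Finset.card_erase_of_mem (T.zero_mem_roots 1), T.card_roots, mul_one]
  have := Nat.one_lt_pow (Nat.one_le_iff_ne_zero.mp T.one_le_d) T.prime.one_lt
  omega

theorem mem_nz {r : L.Pt} : r ∈ T.nz ↔ r ∈ T.roots 1 ∧ r ≠ 0 := by
  classical
  simp [nz, and_comm]

/-- The least valuation of a nonzero `p`-torsion point. -/
def rmin : ℝ := T.nz.inf' T.nz_nonempty fun r => r.v

/-- The largest valuation of a nonzero `p`-torsion point. -/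
def rmax : ℝ := T.nz.sup' T.nz_nonempty fun r => r.v

theorem rmin_le {r : L.Pt} (hr : r ∈ T.roots 1) (h0 : r ≠ 0) : T.rmin ≤ r.v :=
  Finset.inf'_le _ (T.mem_nz.mpr ⟨hr, h0⟩)

theorem le_rmax {r : L.Pt} (hr : r ∈ T.roots 1) (h0 : r ≠ 0) : r.v ≤ T.rmax :=
  Finset.le_sup' (fun r : L.Pt => r.v) (T.mem_nz.mpr ⟨hr, h0⟩)

theorem rmin_pos : 0 < T.rmin :=
  (Finset.lt_inf'_iff _).mpr fun _ hr => v_pos (T.mem_nz.mp hr).2

theorem rmax_pos : 0 < T.rmax := by
  obtain ⟨r, hr⟩ := T.nz_nonempty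
  exact (v_pos (T.mem_nz.mp hr).2).trans_le (T.le_rmax (T.mem_nz.mp hr).1 (T.mem_nz.mp hr).2)

theorem phiN_one_deep {V : ℝ} (hV : V ≤ T.rmin) :
    T.phiN 1 V = (p : ℝ) ^ (h + d) * V := by
  have : ∀ r ∈ T.roots 1, mn V r = V := fun r hr => by
    rcases eq_or_ne r 0 with rfl | h0
    · exact mn_zero V
    · rw [mn_of_ne h0, min_eq_left (hV.trans (T.rmin_le hr h0))]
  rw [phiN, Finset.sum_congr rfl this, Finset.sum_const, T.card_roots, nsmul_eq_mul]
  push_cast
  rw [mul_one, mul_one, pow_add]; ring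

/-- Below the `p`-torsion, multiplication by `p` multiplies valuations by `p ^ n`. -/
theorem v_smul_deep {y : L.Pt} (hy0 : y ≠ 0) (hy : y.v < T.rmin) :
    p • y ≠ 0 ∧ (p • y).v = (p : ℝ) ^ (h + d) * y.v := by
  have hyr : y ∉ T.roots 1 := fun hm => (not_le.mpr hy) (T.rmin_le hm hy0)
  have hgen : ∀ r ∈ T.roots 1, vv (y.val - r.val) ≤ y.v := fun r hr => by
    rcases eq_or_ne r 0 with rfl | h0
    · simp [v]
    · have hlt : y.v < r.v := hy.trans_le (T.rmin_le hr h0)
      have hn : ‖r.val‖ < ‖y.val‖ := (vv_lt_iff (val_ne_zero hy0) (val_ne_zero h0)).mp hlt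
      have : ‖y.val - r.val‖ = ‖y.val‖ := by
        rw [sub_eq_add_neg, IsUltrametricDist.norm_add_eq_max_of_norm_ne_norm
          (by rw [norm_neg]; exact hn.ne'), norm_neg, max_eq_left hn.le]
      exact ((vv_eq_iff (sub_ne_zero.mpr fun e => hyr (by rwa [DiscLaw.Pt.ext e]))
        (val_ne_zero hy0)).mpr this).le
  have h1 := T.v_smul_eq_phiN 1 hyr hgen
  rw [pow_one, T.phiN_one_deep hy.le] at h1
  refine ⟨fun e => hyr ((T.mem_roots 1 y).mpr (by rwa [pow_one])), h1⟩

/-- `v (p • y) ≥ p ^ h * v y`. -/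
theorem le_v_smul {y : L.Pt} (hy : p • y ≠ 0) : (p : ℝ) ^ h * y.v ≤ (p • y).v := by
  have hyr : y ∉ T.roots 1 := fun hm => hy (by simpa using (T.mem_roots 1 y).mp hm)
  have hy0 : y ≠ 0 := fun e => hyr (e ▸ T.zero_mem_roots 1)
  have h1 := (T.mul_le_phiN 1 (v_pos hy0)).trans (T.phiN_le_v_smul 1 hyr)
  simpa using h1

/-! ### fibres of multiplication by `p` -/

theorem card_fibre {N : ℕ} {z : L.Pt} (hz : z ∈ T.roots N) :
    open Classical in ((T.roots (N + 1)).filter fun r => p • r = z).card = p ^ d := by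
  classical
  have hle : ∀ w ∈ T.roots N, ((T.roots (N + 1)).filter fun r => p • r = w).card ≤ p ^ d := by
    intro w _
    rcases ((T.roots (N + 1)).filter fun r => p • r = w).eq_empty_or_nonempty with he | ⟨r0, hr0⟩
    · simp [he]
    calc ((T.roots (N + 1)).filter fun r => p • r = w).card ≤ (T.roots 1).card := by
          refine Finset.card_le_card_of_injOn (fun r => r - r0) (fun r hr => ?_)
            (fun a _ b _ e => by simpa using e)
          rw [Finset.mem_coe, Finset.mem_filter] at hr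
          rw [Finset.mem_coe, T.mem_roots, pow_one, nsmul_sub, hr.2, (Finset.mem_filter.mp hr0).2,
            sub_self]
      _ = p ^ d := by rw [T.card_roots, mul_one]
  have hsum := Finset.card_eq_sum_card_fiberwise (f := fun r : L.Pt => p • r)
    (s := T.roots (N + 1)) (t := T.roots N) fun r hr => T.smul_mem_roots hr
  rw [T.card_roots] at hsum
  refine le_antisymm (hle z hz) (le_of_not_gt fun hlt => ?_)
  have := Finset.sum_lt_sum hle ⟨z, hz, hlt⟩
  rw [← hsum, Finset.sum_const, T.card_roots, smul_eq_mul, ← pow_add, mul_add, mul_one] at this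
  exact lt_irrefl _ this

theorem sum_comp_smul {M : Type*} [AddCommMonoid M] (N : ℕ) (f : L.Pt → M) :
    ∑ r ∈ T.roots (N + 1), f (p • r) = p ^ d • ∑ z ∈ T.roots N, f z := by
  classical
  rw [← Finset.sum_fiberwise_of_maps_to (g := fun r : L.Pt => p • r)
    (fun r hr => T.smul_mem_roots hr) fun r => f (p • r), Finset.smul_sum]
  refine Finset.sum_congr rfl fun z hz => ?_
  rw [Finset.sum_congr rfl fun r hr => by rw [(Finset.mem_filter.mp hr).2], Finset.sum_const,
    T.card_fibre hz]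

theorem exists_preimage {N : ℕ} {z : L.Pt} (hz : z ∈ T.roots N) :
    ∃ r ∈ T.roots (N + 1), p • r = z := by
  classical
  have := T.card_fibre hz
  obtain ⟨r, hr⟩ := Finset.card_pos.mp (this ▸ pow_pos T.prime.pos d)
  exact ⟨r, (Finset.mem_filter.mp hr).1, (Finset.mem_filter.mp hr).2⟩

/-- Torsion points outside the first `j` levels are shallow. -/
theorem v_mul_pow_le (j : ℕ) : ∀ {N : ℕ} {r : L.Pt}, r ∈ T.roots N → r ∉ T.roots j →
    r.v * (p : ℝ) ^ (h * j) ≤ T.rmax := by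
  induction j with
  | zero =>
    intro N r hr hj
    rw [T.roots_zero, Finset.mem_singleton] at hj
    induction N generalizing r with
    | zero => simp [T.roots_zero] at hr; exact (hj hr).elim
    | succ N ih =>
      rw [mul_zero, pow_zero, mul_one]
      by_cases h1 : r ∈ T.roots 1
      · exact T.le_rmax h1 hj
      · have hp : p • r ≠ 0 := fun e => h1 ((T.mem_roots 1 r).mpr (by rwa [pow_one]))
        have h2 := ih (T.smul_mem_roots hr) hp
        rw [mul_zero, pow_zero, mul_one] at h2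
        calc r.v ≤ (p : ℝ) ^ h * r.v := le_mul_of_one_le_left (v_pos hj).le T.one_lt_ph.le
          _ ≤ (p • r).v := T.le_v_smul hp
          _ ≤ T.rmax := h2
  | succ j ih =>
    intro N r hr hj
    have hp' : p • r ∉ T.roots j := fun e => hj (T.mem_roots_succ.mpr e)
    have hp : p • r ≠ 0 := fun e => hp' (e ▸ T.zero_mem_roots j)
    have hmem : p • r ∈ T.roots N := by
      rw [T.mem_roots] at hr ⊢; rw [smul_comm, hr, smul_zero]
    calc r.v * (p : ℝ) ^ (h * (j + 1)) = ((p : ℝ) ^ h * r.v) * (p : ℝ) ^ (h * j) := by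
          rw [mul_add, mul_one, pow_add]; ring
      _ ≤ (p • r).v * (p : ℝ) ^ (h * j) := by
          gcongr
          exact T.le_v_smul hp
      _ ≤ T.rmax := ih hmem hp'

/-- `min (p ^ n V) (v (p • r)) = p ^ n min V (v r)` below the `p`-torsion. -/
theorem mn_smul {V : ℝ} (hV : V ≤ T.rmin) (r : L.Pt) :
    mn ((p : ℝ) ^ (h + d) * V) (p • r) = (p : ℝ) ^ (h + d) * mn V r := by
  have hq : (0 : ℝ) < (p : ℝ) ^ (h + d) := pow_pos T.p_pos _
  rcases eq_or_ne r 0 with rfl | h0
  · rw [smul_zero, mn_zero, mn_zero]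
  rw [mn_of_ne h0]
  rcases lt_or_ge r.v T.rmin with hlt | hge
  · obtain ⟨hne, he⟩ := T.v_smul_deep h0 hlt
    rw [mn_of_ne hne, he, mul_min_of_nonneg _ _ hq.le]
  · rw [min_eq_left (hV.trans hge)]
    by_cases hp : p • r = 0
    · rw [hp, mn_zero]
    · have hyr : r ∉ T.roots 1 := fun hm => hp (by simpa using (T.mem_roots 1 r).mp hm)
      rw [mn_of_ne hp, min_eq_left]
      have h1 := T.phiN_le_v_smul 1 hyr
      rw [pow_one] at h1
      calc (p : ℝ) ^ (h + d) * V ≤ (p : ℝ) ^ (h + d) * T.rmin := mul_le_mul_of_nonneg_left hV hq.le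
        _ = T.phiN 1 T.rmin := (T.phiN_one_deep le_rfl).symm
        _ ≤ T.phiN 1 r.v := T.phiN_mono 1 hge
        _ ≤ (p • r).v := h1

/-- The semigroup identity `φ_N (p ^ n V) = φ_{N+1} V`. -/
theorem phiN_scale (N : ℕ) {V : ℝ} (hV : V ≤ T.rmin) :
    T.phiN N ((p : ℝ) ^ (h + d) * V) = T.phiN (N + 1) V := by
  have h1 := T.sum_comp_smul N fun z => mn ((p : ℝ) ^ (h + d) * V) z
  simp only [T.mn_smul hV, nsmul_eq_mul, Nat.cast_pow] at h1
  rw [← Finset.mul_sum] at h1
  rw [phiN, phiN, mul_add, mul_one]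
  have hd0 : (p : ℝ) ^ d ≠ 0 := pow_ne_zero _ T.p_pos.ne'
  apply mul_left_cancel₀ hd0
  rw [mul_left_comm, ← h1, pow_add, pow_add]
  ring

end Tower

end Vale.Agent.P217.Tors
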