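import Vale.Agent.P217.Tors.Law

/-!
# P217: the additive valuation `vv x = - log ‖x‖`
-/

noncomputable section

namespace Vale.Agent.P217.Tors

set_option linter.unusedSectionVars false

variable {C : Type*} [NormedField C] [IsUltrametricDist C]

/-- `- log ‖x‖` (the value at `0` is junk). -/
def vv (x : C) : ℝ := - Real.log ‖x‖

theorem vv_le_iff {x y : C} (hx : x ≠ 0) (hy : y ≠ 0) : vv x ≤ vv y ↔ ‖y‖ ≤ ‖x‖ := by
  rw [vv, vv, neg_le_neg_iff, Real.log_le_log_iff (norm_pos_iff.mpr hy) (norm_pos_iff.mpr hx)]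

theorem vv_lt_iff {x y : C} (hx : x ≠ 0) (hy : y ≠ 0) : vv x < vv y ↔ ‖y‖ < ‖x‖ := by
  rw [vv, vv, neg_lt_neg_iff, Real.log_lt_log_iff (norm_pos_iff.mpr hy) (norm_pos_iff.mpr hx)]

theorem vv_eq_iff {x y : C} (hx : x ≠ 0) (hy : y ≠ 0) : vv x = vv y ↔ ‖x‖ = ‖y‖ := by
  rw [le_antisymm_iff, le_antisymm_iff, vv_le_iff hx hy, vv_le_iff hy hx, and_comm]

theorem vv_pos {x : C} (hx : x ≠ 0) (h : ‖x‖ < 1) : 0 < vv x := by
  rw [vv, neg_pos]
  exact Real.log_neg (norm_pos_iff.mpr hx) h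

theorem vv_mul {x y : C} (hx : x ≠ 0) (hy : y ≠ 0) : vv (x * y) = vv x + vv y := by
  rw [vv, vv, vv, norm_mul, Real.log_mul (norm_ne_zero_iff.mpr hx) (norm_ne_zero_iff.mpr hy)]
  ring

theorem vv_one : vv (1 : C) = 0 := by simp [vv]

theorem vv_eq_zero_of_norm {x : C} (h : ‖x‖ = 1) : vv x = 0 := by simp [vv, h]

theorem vv_neg (x : C) : vv (-x) = vv x := by simp [vv]

theorem vv_pow (x : C) (k : ℕ) : vv (x ^ k) = k * vv x := by
  simp [vv, norm_pow, Real.log_pow]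

theorem vv_prod {ι : Type*} (s : Finset ι) (f : ι → C) (h : ∀ i ∈ s, f i ≠ 0) :
    vv (∏ i ∈ s, f i) = ∑ i ∈ s, vv (f i) := by
  classical
  induction s using Finset.induction_on with
  | empty => simp [vv_one]
  | insert a s ha ih =>
    have hs : ∀ i ∈ s, f i ≠ 0 := fun i hi => h i (Finset.mem_insert_of_mem hi)
    rw [Finset.prod_insert ha, Finset.sum_insert ha,
      vv_mul (h a (Finset.mem_insert_self a s)) (Finset.prod_ne_zero_iff.mpr hs), ih hs]

variable {L : DiscLaw C}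

namespace DiscLaw.Pt

/-- The valuation of a point. -/
def v (x : L.Pt) : ℝ := vv x.val

theorem val_ne_zero {x : L.Pt} (hx : x ≠ 0) : x.val ≠ 0 := fun h => hx (Pt.ext h)

theorem v_pos {x : L.Pt} (hx : x ≠ 0) : 0 < x.v := vv_pos (val_ne_zero hx) x.norm_lt

/-- `min V (v r)`, reading `v 0` as infinity. -/
def mn (V : ℝ) (r : L.Pt) : ℝ :=
  open Classical in if r = 0 then V else min V r.v

theorem mn_zero (V : ℝ) : mn V (0 : L.Pt) = V := by simp [mn]

theorem mn_of_ne {V : ℝ} {r : L.Pt} (h : r ≠ 0) : mn V r = min V r.v := by simp [mn, h]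

theorem mn_le (V : ℝ) (r : L.Pt) : mn V r ≤ V := by
  unfold mn; split_ifs <;> simp

theorem mn_mono {V V' : ℝ} (h : V ≤ V') (r : L.Pt) : mn V r ≤ mn V' r := by
  unfold mn; split_ifs
  · exact h
  · exact min_le_min h le_rfl

theorem mn_pos {V : ℝ} (hV : 0 < V) (r : L.Pt) : 0 < mn V r := by
  unfold mn; split_ifs with h
  · exact hV
  · exact lt_min hV (v_pos h)

/-- `mn V r ≤ v (x - r)` for `v x = V`. -/
theorem mn_le_v_sub {x r : L.Pt} (hx : x ≠ 0) (hxr : x ≠ r) :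
    mn x.v r ≤ vv (x.val - r.val) := by
  have hne : x.val - r.val ≠ 0 := sub_ne_zero.mpr fun h => hxr (Pt.ext h)
  rcases eq_or_ne r 0 with rfl | hr
  · simp [mn_zero, v]
  · rw [mn_of_ne hr]
    have h := IsUltrametricDist.norm_add_le_max x.val (-r.val)
    rw [norm_neg, ← sub_eq_add_neg] at h
    rcases le_max_iff.mp h with h1 | h1
    · exact (min_le_left _ _).trans ((vv_le_iff (val_ne_zero hx) hne).mpr h1)
    · exact (min_le_right _ _).trans ((vv_le_iff (val_ne_zero hr) hne).mpr h1)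

theorem vv_sub_eq_v_sub {x r : L.Pt} (hxr : x ≠ r) : vv (x.val - r.val) = (x - r).v := by
  have hne : x.val - r.val ≠ 0 := sub_ne_zero.mpr fun h => hxr (Pt.ext h)
  have h1 : (x - r).val ≠ 0 := val_ne_zero (sub_ne_zero.mpr hxr)
  exact ((vv_eq_iff hne h1).mpr (L.norm_val_sub x r).symm)

/-- `mn V r = v (x - r)` unless the difference is deeper than `x`. -/
theorem v_sub_eq_mn {x r : L.Pt} (hx : x ≠ 0) (hxr : x ≠ r) (h : vv (x.val - r.val) ≤ x.v) :
    vv (x.val - r.val) = mn x.v r := by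
  refine le_antisymm ?_ (mn_le_v_sub hx hxr)
  rcases eq_or_ne r 0 with rfl | hr
  · rw [mn_zero]; exact h
  · rw [mn_of_ne hr]
    refine le_min h ?_
    rcases le_or_gt x.v r.v with hle | hlt
    · exact h.trans hle
    · have hn : ‖x.val‖ < ‖r.val‖ := (vv_lt_iff (val_ne_zero hr) (val_ne_zero hx)).mp hlt
      have : ‖x.val - r.val‖ = ‖r.val‖ := by
        rw [sub_eq_add_neg, IsUltrametricDist.norm_add_eq_max_of_norm_ne_norm
          (by rw [norm_neg]; exact hn.ne), norm_neg, max_eq_right hn.le]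
      exact ((vv_eq_iff (sub_ne_zero.mpr fun e => hxr (Pt.ext e)) (val_ne_zero hr)).mpr this).le

end DiscLaw.Pt

end Vale.Agent.P217.Tors
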